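import Vale.Agent.P179R.Defs

/-!
# Riemann existence theorem: the piece `ALG` (field theory)
-/

open Set Polynomial Function IntermediateField

namespace Vale.Agent.P179R

noncomputable section

namespace AlgH

/-! ### rotations of Laurent series -/

/-- the substitution `s ↦ ζ s` -/
def rot (ζ : ℂ) (f : LaurentSeries ℂ) : LaurentSeries ℂ :=
  ⟨fun n => ζ ^ n * f.coeff n, f.isPWO_support.mono fun _ hn => right_ne_zero_of_mul hn⟩

theorem rot_sub (ζ : ℂ) (f : LaurentSeries ℂ) : (rot ζ f).support ⊆ f.support :=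
  fun _ hn => right_ne_zero_of_mul hn

theorem rot_mul {ζ : ℂ} (hζ : ζ ≠ 0) (f g : LaurentSeries ℂ) :
    rot ζ (f * g) = rot ζ f * rot ζ g := by
  ext n
  rw [HahnSeries.coeff_mul_left' f.isPWO_support (rot_sub ζ f)]
  change ζ ^ n * (f * g).coeff n = _
  rw [HahnSeries.coeff_mul, Finset.mul_sum]
  symm
  refine Finset.sum_subset_zero_on_sdiff (fun ij h => ?_) (fun ij h => ?_) fun ij h => ?_
  · rw [Finset.mem_antidiagonal] at h ⊢
    exact ⟨h.1, rot_sub ζ g h.2.1, h.2.2⟩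
  · rw [Finset.mem_sdiff, Finset.mem_antidiagonal, Finset.mem_antidiagonal] at h
    by_contra k
    exact h.2 ⟨h.1.1, mul_ne_zero (zpow_ne_zero _ hζ) h.1.2.1, h.1.2.2⟩
  · rw [Finset.mem_antidiagonal] at h
    rw [← h.2.2, zpow_add₀ hζ]
    change ζ ^ ij.1 * _ * (ζ ^ ij.2 * _) = _
    ring

theorem zeta_ne (N : ℕ) : zeta N ≠ 0 := Complex.exp_ne_zero _

/-! ### homomorphisms on fractions -/

theorem ex_hom {B E T : Type} [CommRing B] [IsDomain B] [Field E] [Field T] (j : B →+* E)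
    (φ : B →+* T) (hj : Injective j) (hφ : Injective φ) (L : Subfield E)
    (h : ∀ x ∈ L, ∃ a d, d ≠ 0 ∧ j d * x = j a) :
    ∃ ψ : L →+* T, ∀ (x : L) a d, j d * x = j a → φ d * ψ x = φ a := by
  let j' : FractionRing B →+* E := IsFractionRing.lift hj
  let φ' : FractionRing B →+* T := IsFractionRing.lift hφ
  have e1 : ∀ b, j' (algebraMap B _ b) = j b := IsFractionRing.lift_algebraMap hj
  have e2 : ∀ b, φ' (algebraMap B _ b) = φ b := IsFractionRing.lift_algebraMap hφ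
  have hL : L ≤ j'.fieldRange := fun x hx => by
    obtain ⟨a, d, d0, e⟩ := h x hx
    refine ⟨algebraMap B _ a / algebraMap B _ d, ?_⟩
    rw [map_div₀, e1, e1, ← e, mul_div_cancel_left₀ _ ((map_ne_zero_iff j hj).2 d0)]
  refine ⟨φ'.comp ((j'.rangeRestrictFieldEquiv.symm : j'.fieldRange →+* FractionRing B).comp
    (Subfield.inclusion hL)), fun x a d e => ?_⟩
  obtain ⟨y, hy⟩ := hL x.2
  have k : j'.rangeRestrictFieldEquiv.symm (Subfield.inclusion hL x) = y :=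
    (RingEquiv.symm_apply_eq _).2 (Subtype.ext hy.symm)
  have k2 : algebraMap B _ d * y = algebraMap B _ a := j'.injective (by
    rw [map_mul, e1, e1, hy, e])
  simp only [RingHom.comp_apply, RingHom.coe_coe, k]
  rw [← e2, ← e2, ← map_mul, k2]

variable {A : Type} [CommRing A] [Algebra ℂ[X] A]

theorem inj_F : Injective (algebraMap ℂ[X] Fb) := by
  rw [IsScalarTower.algebraMap_eq ℂ[X] F Fb, RingHom.coe_comp]
  exact (algebraMap F Fb).injective.comp (IsFractionRing.injective _ _)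

instance : FaithfulSMul ℂ[X] Fb := (faithfulSMul_iff_algebraMap_injective _ _).2 inj_F

instance : Algebra.IsAlgebraic ℂ[X] Fb :=
  (IsFractionRing.comap_isAlgebraic_iff (A := ℂ[X]) (K := F) (C := Fb)).2 inferInstance

/-- the field of fractions of the image of `ι` -/
def W (ι : A →ₐ[ℂ[X]] Fb) : IntermediateField F Fb :=
  Subalgebra.IsAlgebraic.toIntermediateField (S :=
    { carrier := {x | ∃ (a : A) (d : ℂ[X]), d ≠ 0 ∧ algebraMap ℂ[X] Fb d * x = ι a}
      mul_mem' := by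
        rintro x y ⟨a, d, d0, e⟩ ⟨a', d', d0', e'⟩
        exact ⟨a * a', d * d', mul_ne_zero d0 d0', by rw [map_mul, map_mul, ← e, ← e']; ring⟩
      add_mem' := by
        rintro x y ⟨a, d, d0, e⟩ ⟨a', d', d0', e'⟩
        refine ⟨algebraMap _ _ d' * a + algebraMap _ _ d * a', d * d', mul_ne_zero d0 d0', ?_⟩
        rw [map_add, map_mul, map_mul, map_mul, ← e, ← e', ι.commutes, ι.commutes]
        ring
      algebraMap_mem' := fun f => ⟨algebraMap _ _ f.num, f.denom, f.denom_ne_zero, by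
        rw [ι.commutes, IsScalarTower.algebraMap_apply ℂ[X] F Fb,
          IsScalarTower.algebraMap_apply ℂ[X] F Fb, ← map_mul]
        congr 1
        conv_lhs => enter [2]; rw [← f.num_div_denom]
        exact mul_div_cancel₀ _ (RatFunc.algebraMap_ne_zero f.denom_ne_zero)⟩ })
    fun x _ => Algebra.IsAlgebraic.isAlgebraic x

theorem mem_W {ι : A →ₐ[ℂ[X]] Fb} {x : Fb} :
    x ∈ W ι ↔ ∃ (a : A) (d : ℂ[X]), d ≠ 0 ∧ algebraMap ℂ[X] Fb d * x = ι a := Iff.rfl

theorem fix_poly (σ : Fb ≃ₐ[F] Fb) (d : ℂ[X]) :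
    σ (algebraMap ℂ[X] Fb d) = algebraMap ℂ[X] Fb d := by
  rw [IsScalarTower.algebraMap_apply ℂ[X] F Fb, σ.commutes]

/-- the embedding and the lifts of the automorphisms -/
theorem ex_lift [IsDomain A] {r : ℕ} (ρ : FreeGroup (Fin r) →* (A →ₐ[ℂ[X]] A))
    (h1 : Injective (algebraMap ℂ[X] A)) (h2 : Algebra.IsIntegral ℂ[X] A) :
    ∃ (ι : A →ₐ[ℂ[X]] Fb) (Γ : FreeGroup (Fin r) →* (Fb ≃ₐ[F] Fb)), Injective ι ∧
      ∀ g a, Γ g (ι a) = ι (ρ g a) := by
  have : FaithfulSMul ℂ[X] A := (faithfulSMul_iff_algebraMap_injective _ _).2 h1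
  let ι : A →ₐ[ℂ[X]] Fb := IsAlgClosed.lift
  have hι : Injective ι := by
    rw [RingHom.injective_iff_ker_eq_bot]
    refine Ideal.eq_bot_of_comap_eq_bot (R := ℂ[X]) ?_
    refine eq_bot_iff.2 fun d (hd : ι (algebraMap _ _ d) = 0) => ?_
    rw [ι.commutes] at hd
    exact (map_eq_zero_iff _ inj_F).1 hd
  let : Algebra A Fb := ι.toRingHom.toAlgebra
  have : IsScalarTower ℂ[X] A Fb := .of_algebraMap_eq fun d => (ι.commutes d).symm
  have : FaithfulSMul A Fb := (faithfulSMul_iff_algebraMap_injective _ _).2 hι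
  have : IsAlgClosure A Fb := ⟨inferInstance, Algebra.IsAlgebraic.extendScalars h1⟩
  have inv : ∀ g a, ρ g (ρ g⁻¹ a) = a := fun g a => by
    rw [← AlgHom.mul_apply, ← map_mul, mul_inv_cancel, map_one, AlgHom.one_apply]
  have key : ∀ g, ∃ σ : Fb ≃ₐ[F] Fb, ∀ a, σ (ι a) = ι (ρ g a) := fun g => by
    let e : A ≃+* A := RingEquiv.ofBijective (ρ g) ⟨LeftInverse.injective (g := ρ g⁻¹) fun a => by
      simpa only [inv_inv] using inv g⁻¹ a, RightInverse.surjective (inv g)⟩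
    let s := IsAlgClosure.equivOfEquiv Fb Fb e
    have hs : ∀ a, s (ι a) = ι (ρ g a) := IsAlgClosure.equivOfEquiv_algebraMap Fb Fb e
    refine ⟨AlgEquiv.ofRingEquiv (f := s) fun f => ?_, hs⟩
    refine RingHom.congr_fun (IsLocalization.ringHom_ext (nonZeroDivisors ℂ[X])
      (j := (s : Fb →+* Fb).comp (algebraMap F Fb)) (k := algebraMap F Fb)
      (RingHom.ext fun d => ?_)) f
    simp only [RingHom.comp_apply, ← IsScalarTower.algebraMap_apply, RingHom.coe_coe]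
    rw [← ι.commutes, hs, AlgHom.commutes]
  choose γ hγ using key
  refine ⟨ι, FreeGroup.lift fun i => γ (FreeGroup.of i), hι, fun g => ?_⟩
  induction g using FreeGroup.induction_on with
  | C1 => simp
  | of i => simpa using hγ _
  | inv_of i h =>
    intro a
    rw [map_inv, AlgEquiv.aut_inv, AlgEquiv.symm_apply_eq, h, inv]
  | mul x y hx hy =>
    intro a
    rw [map_mul, map_mul, AlgEquiv.mul_apply, AlgHom.mul_apply, hy, hx]

theorem loc_sub {z : ℂ} {L : Type} [Field L] [Algebra F L] {φ : L →+* LaurentSeries ℂ}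
    (h1 : ∀ c : ℂ, φ (algebraMap F L (RatFunc.C c)) = HahnSeries.C c)
    (h2 : φ (algebraMap F L (RatFunc.X - RatFunc.C z)) = HahnSeries.single ((1 : ℕ) : ℤ) 1) :
    φ.comp ((algebraMap F L).comp (algebraMap ℂ[X] F)) = sub (z : OnePoint ℂ) 1 := by
  refine Polynomial.ringHom_ext (fun c => ?_) ?_
  · simp [sub, h1]
  · rw [map_sub, map_sub, h1, sub_eq_iff_eq_add'] at h2
    simp [sub, h2]

/-- unramified extensions lie in `W` -/
theorem le_W {S : Set ℂ} (ι : A →ₐ[ℂ[X]] Fb)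
    (h : ∀ P : ℂ[X][X], P.Monic → 0 < P.natDegree → (P.map (algebraMap ℂ[X] F)).Separable →
      (∀ z ∉ S, (P.map (sub (z : OnePoint ℂ) 1)).Splits) → ∃ x : A, aeval x P = 0)
    (L : IntermediateField F Fb) [FiniteDimensional F L] [Normal F L] (hL : Unram S L) :
    L ≤ W ι := by
  obtain ⟨α, hα⟩ := Field.exists_primitive_element F L
  obtain ⟨d, d0, hd⟩ :=
    (Algebra.IsAlgebraic.isAlgebraic (R := ℂ[X]) (α : Fb)).exists_integral_multiple
  have e := minpoly.isIntegrallyClosed_eq_field_fractions' F hd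
  let β : L := algebraMap ℂ[X] F d • α
  have hβ : (β : Fb) = d • (α : Fb) := algebraMap_smul F d (α : Fb)
  have e2 : minpoly F (d • (α : Fb)) = minpoly F β := by
    rw [← hβ]
    exact minpoly.algebraMap_eq (algebraMap L Fb).injective β
  obtain ⟨x, hx⟩ := h _ (minpoly.monic hd) (minpoly.natDegree_pos hd) (by
    rw [← e]
    exact (minpoly.irreducible hd.tower_top).separable) fun z hz => by
      obtain ⟨φ, h1, h2, -⟩ := hL z hz
      rw [← loc_sub h1 h2, ← Polynomial.map_map, ← Polynomial.map_map, ← e, e2]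
      exact (Normal.splits inferInstance β).map φ
  obtain ⟨σ, hσ⟩ := minpoly.exists_algEquiv_of_root' (K := F) (x := ι x) (y := d • (α : Fb))
    (Algebra.IsAlgebraic.isAlgebraic _) (by
      rw [e, aeval_map_algebraMap, aeval_algHom_apply, hx, map_zero])
  have e3 : L = F⟮(α : Fb)⟯ := by rw [← lift_adjoin_simple, hα, lift_top]
  rw [← (normal_iff_forall_map_eq' (K := L)).1 inferInstance σ]
  conv_lhs => rw [e3, adjoin_map, image_singleton]
  rw [adjoin_simple_le_iff]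
  exact ⟨x, d, d0, by rw [← hσ, Algebra.smul_def, map_mul, fix_poly]; rfl⟩

variable {r : ℕ} {ρ : FreeGroup (Fin r) →* (A →ₐ[ℂ[X]] A)} {ι : A →ₐ[ℂ[X]] Fb}
  {Γ : FreeGroup (Fin r) →* (Fb ≃ₐ[F] Fb)}

/-- the elements of `W` fixed by the group -/
theorem fix_bot (hι : Injective ι) (hΓ : ∀ g a, Γ g (ι a) = ι (ρ g a))
    (h : ∀ x : A, (∀ γ, ρ γ x = x) → x ∈ range (algebraMap ℂ[X] A)) {x : Fb} (hx : x ∈ W ι)
    (hf : ∀ g, Γ g x = x) : ∃ f : F, algebraMap F Fb f = x := by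
  obtain ⟨a, d, d0, e⟩ := hx
  obtain ⟨Q, rfl⟩ := h a fun g => hι (by rw [← hΓ, ← e, map_mul, fix_poly, hf])
  refine ⟨algebraMap _ _ Q / algebraMap _ _ d, ?_⟩
  rw [map_div₀, ← IsScalarTower.algebraMap_apply, ← IsScalarTower.algebraMap_apply,
    ← ι.commutes, ← e, mul_div_cancel_left₀ _ ((map_ne_zero_iff _ inj_F).2 d0)]

/-- the local expansion -/
theorem loc_of [IsDomain A] (hι : Injective ι) (hΓ : ∀ g a, Γ g (ι a) = ι (ρ g a))
    {L : IntermediateField F Fb} (hL : L ≤ W ι) {c : OnePoint ℂ} {N : ℕ} {g : FreeGroup (Fin r)}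
    (h : LocA c N (ρ g)) {σ : L → L} (hσ : ∀ x, (σ x : Fb) = Γ g x)
    (hN : ∀ x : L, (Γ g ^ N) x = x) : ∃ φ : L →+* LaurentSeries ℂ,
      (∀ Q : ℂ[X], φ (algebraMap F L (algebraMap ℂ[X] F Q)) = sub c N Q) ∧
        ∀ (x : L) (n : ℤ), (φ (σ x)).coeff n = zeta N ^ n * (φ x).coeff n := by
  obtain ⟨φ, h0, h1, h2⟩ := h
  let B := AlgHom.equalizer (ρ g ^ N) (AlgHom.id ℂ[X] A)
  let j : B →ₐ[ℂ[X]] Fb := ι.comp B.val
  have fr : ∀ x : L, ∃ (a : B) (d : ℂ[X]), d ≠ 0 ∧ j (algebraMap _ _ d) * x = j a := fun x => by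
    obtain ⟨a, d, d0, e⟩ := hL x.2
    refine ⟨⟨a, hι ?_⟩, d, d0, by rw [j.commutes]; exact e⟩
    rw [← map_pow, ← hΓ, map_pow, ← e, map_mul, fix_poly, hN, e, AlgHom.id_apply]
  have ne : ∀ d : ℂ[X], d ≠ 0 → algebraMap ℂ[X] B d ≠ 0 := fun d d0 k =>
    (map_ne_zero_iff _ inj_F).2 d0 (by rw [← j.commutes, k, map_zero])
  obtain ⟨ψ, hψ⟩ := ex_hom (j : B →+* Fb) φ (hι.comp Subtype.val_injective) h0 L.toSubfield
    fun x hx => by
      obtain ⟨a, d, d0, e⟩ := fr ⟨x, hx⟩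
      exact ⟨a, _, ne d d0, e⟩
  refine ⟨ψ, fun Q => ?_, fun x => ?_⟩
  · have k := hψ (algebraMap F L (algebraMap ℂ[X] F Q)) (algebraMap _ _ Q) 1 (by
      rw [map_one, one_mul, RingHom.coe_coe, j.commutes, IsScalarTower.algebraMap_apply ℂ[X] F Fb]
      rfl)
    rwa [map_one, one_mul, h1] at k
  · obtain ⟨a, d, d0, e⟩ := fr x
    obtain ⟨a', d', d0', e'⟩ := fr (σ x)
    have m : ρ g a ∈ B := by
      have k : (ρ g ^ N) a = a := a.2
      change (ρ g ^ N) (ρ g a) = ρ g a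
      rw [← AlgHom.mul_apply, ← pow_succ, pow_succ', AlgHom.mul_apply, k]
    have k1 := hψ x a _ e
    have k2 := hψ (σ x) ⟨_, m⟩ (algebraMap _ _ d) (by
      change j _ * (σ x : Fb) = ι (ρ g a)
      rw [← hΓ, hσ, j.commutes, ← fix_poly (Γ g), ← map_mul, ← j.commutes, e]
      rfl)
    have r1 : φ ⟨_, m⟩ = rot (zeta N) (φ a) := HahnSeries.ext (funext (h2 a _ rfl))
    have r2 : φ (algebraMap _ _ d) = rot (zeta N) (φ (algebraMap _ _ d)) :=
      HahnSeries.ext (funext (h2 _ _ ((ρ g).commutes d).symm))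
    rw [r1, ← k1, rot_mul (zeta_ne N), ← r2] at k2
    intro n
    exact congrArg (HahnSeries.coeff · n)
      (mul_left_cancel₀ ((map_ne_zero_iff φ h0).2 (ne d d0)) k2)

theorem loc_fin {a : ℂ} {L : Type} [Field L] [Algebra F L] {N : ℕ} {σ : L → L}
    (h : ∃ φ : L →+* LaurentSeries ℂ,
      (∀ Q : ℂ[X], φ (algebraMap F L (algebraMap ℂ[X] F Q)) = sub (a : OnePoint ℂ) N Q) ∧
        ∀ (x : L) (n : ℤ), (φ (σ x)).coeff n = zeta N ^ n * (φ x).coeff n) :
    Loc (RatFunc.X - RatFunc.C a) L N σ := by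
  obtain ⟨φ, h1, h2⟩ := h
  refine ⟨φ, fun c => by simpa [sub] using h1 (C c), ?_, h2⟩
  have k := h1 (X - C a)
  rw [map_sub (sub _ _), map_sub (algebraMap ℂ[X] F)] at k
  simpa [sub] using k

theorem loc_inf {L : Type} [Field L] [Algebra F L] {N : ℕ} {σ : L → L}
    (h : ∃ φ : L →+* LaurentSeries ℂ,
      (∀ Q : ℂ[X], φ (algebraMap F L (algebraMap ℂ[X] F Q)) = sub OnePoint.infty N Q) ∧
        ∀ (x : L) (n : ℤ), (φ (σ x)).coeff n = zeta N ^ n * (φ x).coeff n) :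
    Loc RatFunc.X⁻¹ L N σ := by
  obtain ⟨φ, h1, h2⟩ := h
  refine ⟨φ, fun c => by simpa [sub] using h1 (C c), ?_, h2⟩
  have k := h1 X
  rw [RatFunc.algebraMap_X] at k
  rw [map_inv₀, map_inv₀, k]
  simp [sub, HahnSeries.inv_single]

theorem res_coe (L : IntermediateField F Fb) [Normal F L] (σ : Fb ≃ₐ[F] Fb) (x : L) :
    (σ.restrictNormal L x : Fb) = σ x := σ.restrictNormal_commutes L x

theorem pow_fix (L : IntermediateField F Fb) [Normal F L] {σ : Fb ≃ₐ[F] Fb} {N : ℕ}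
    (h : σ.restrictNormal L ^ N = 1) (x : L) : (σ ^ N) x = x := by
  have k : (σ ^ N).restrictNormal L = 1 := (map_pow (AlgEquiv.restrictNormalHom L) σ N).trans h
  rw [← res_coe, k, AlgEquiv.one_apply]

/-- generation -/
theorem gen (hι : Injective ι) (hΓ : ∀ g a, Γ g (ι a) = ι (ρ g a))
    (h : ∀ x : A, (∀ γ, ρ γ x = x) → x ∈ range (algebraMap ℂ[X] A))
    {L : IntermediateField F Fb} [FiniteDimensional F L] [Normal F L] (hL : L ≤ W ι) :
    Subgroup.closure (range fun i => (Γ (FreeGroup.of i)).restrictNormal L) = ⊤ := by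
  have e : Subgroup.closure (range fun i => (Γ (FreeGroup.of i)).restrictNormal L) =
      ((AlgEquiv.restrictNormalHom L).comp Γ).range := by
    rw [MonoidHom.range_eq_map, ← FreeGroup.closure_range_of, MonoidHom.map_closure,
      ← range_comp]
    rfl
  rw [e, ← fixingSubgroup_fixedField (MonoidHom.range _), eq_top_iff]
  intro σ _ x
  obtain ⟨f, hf⟩ := fix_bot hι hΓ h (hL x.1.2) fun g => by
    rw [← res_coe]
    exact congrArg _ (x.2 ⟨_, g, rfl⟩)
  rw [show x.1 = algebraMap F L f from Subtype.ext hf.symm]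
  exact σ.commutes f

end AlgH

open AlgH in
/-- **ALG** -/
theorem alg : ALG := by
  intro H S hS
  obtain ⟨r, a, a1, a2, A, _, _, _, ρ, h1, h2, h3, h4, h5, h6, h7, h8⟩ := H S hS
  obtain ⟨ι, Γ, hι, hΓ⟩ := ex_lift ρ h1 h2
  have e : (List.ofFn fun i => Γ (FreeGroup.of i)).prod⁻¹ = Γ (ginf r) := by
    rw [ginf, map_inv, map_list_prod, List.map_ofFn]
    rfl
  refine ⟨r, a, fun i => Γ (FreeGroup.of i), a1, a2, fun L _ _ hL => ?_, fun G _ _ g => ?_⟩
  · have hW := le_W ι h8 L hL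
    rw [e]
    exact ⟨gen hι hΓ h3 hW,
      fun i N N0 h => loc_fin (loc_of hι hΓ hW (h5 i N N0) (res_coe L _) (pow_fix L h)),
      fun N N0 h => loc_inf (loc_of hι hΓ hW (h6 N N0) (res_coe L _) (pow_fix L h))⟩
  obtain ⟨x, hx⟩ := h7 G (FreeGroup.lift g)
  let T : Set Fb := range fun γ => Γ γ (ι x)
  have int : ∀ y : Fb, IsIntegral F y := fun y => Algebra.IsIntegral.isIntegral y
  have : Finite T := ((minpoly F (ι x)).rootSet_finite Fb).subset (by
    rintro _ ⟨γ, rfl⟩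
    rw [mem_rootSet_of_ne (minpoly.ne_zero (int _)), aeval_algEquiv, AlgHom.comp_apply,
      minpoly.aeval, map_zero])
  let L := adjoin F T
  have hW : L ≤ W ι := adjoin_le_iff.2 (by
    rintro _ ⟨γ, rfl⟩
    exact ⟨ρ γ x, 1, one_ne_zero, by rw [map_one, one_mul, ← hΓ]⟩)
  have fd : FiniteDimensional F L := finiteDimensional_adjoin fun y _ => int y
  have hm : ∀ γ, L.map (Γ γ : Fb →ₐ[F] Fb) = L := fun γ => by
    rw [adjoin_map]
    congr 1
    ext y
    constructor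
    · rintro ⟨_, ⟨γ', rfl⟩, rfl⟩
      exact ⟨γ * γ', by simp⟩
    · rintro ⟨γ', rfl⟩
      exact ⟨_, ⟨γ⁻¹ * γ', rfl⟩, by simp⟩
  have ga : IsGalois F L := IsGalois.of_fixedField_eq_bot F L (eq_bot_iff.2 fun y hy => by
    obtain ⟨f, hf⟩ := fix_bot hι hΓ h3 (hW y.2) fun γ => congrArg Subtype.val
      (hy ⟨(L.intermediateFieldMap (Γ γ)).trans (equivOfEq (hm γ)), Subgroup.mem_top _⟩)
    exact ⟨f, Subtype.ext hf⟩)
  let R := (AlgEquiv.restrictNormalHom L).comp Γ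
  have sj : Surjective R := MonoidHom.range_eq_top.1 (eq_top_iff.2 ((gen hι hΓ h3 hW).ge.trans
    ((Subgroup.closure_le _).2 (range_subset_iff.2 fun i => ⟨_, rfl⟩))))
  have ker : ∀ γ, R γ = 1 ↔ FreeGroup.lift g γ = 1 := fun γ => by
    constructor
    · intro h
      have k := res_coe L (Γ γ) ⟨ι x, subset_adjoin F T ⟨1, by simp⟩⟩
      rw [show (Γ γ).restrictNormal L = 1 from h] at k
      exact (hx γ).1 (hι (by rw [← hΓ]; exact k.symm))
    · intro h
      ext y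
      rw [AlgEquiv.one_apply]
      refine (res_coe L _ y).trans ?_
      have k : T ⊆ fixedField (Subgroup.zpowers (Γ γ)) := by
        rintro _ ⟨γ', rfl⟩ ⟨_, n, rfl⟩
        have k1 := (hx (γ'⁻¹ * γ ^ n * γ')).2 (by simp [h])
        have k2 := (hΓ _ _).trans (congrArg ι k1)
        rw [map_mul, map_mul, map_inv, map_zpow, AlgEquiv.mul_apply, AlgEquiv.mul_apply,
          AlgEquiv.aut_inv, AlgEquiv.symm_apply_eq] at k2
        exact k2
      exact adjoin_le_iff.2 k y.2 ⟨_, Subgroup.mem_zpowers _⟩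
  let ψ := R.liftOfSurjective sj ⟨FreeGroup.lift g, fun γ h => (ker γ).1 h⟩
  have hψ : ∀ γ, ψ (R γ) = FreeGroup.lift g γ := fun γ =>
    R.liftOfRightInverse_comp_apply _ _ _ γ
  refine ⟨L, fd, inferInstance, fun z hz => loc_fin (loc_of hι hΓ hW (h4 z hz)
    (fun y => by simp) fun y => by simp), ψ, (injective_iff_map_eq_one ψ).2 fun σ h => ?_,
    fun i => (hψ _).trans FreeGroup.lift_apply_of⟩
  obtain ⟨γ, rfl⟩ := sj σ
  exact (ker γ).2 ((hψ γ).symm.trans h)

end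

end Vale.Agent.P179R
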