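import Vale.Agent.P179R.Cpt2

/-!
# CPT: a holomorphic function of polynomial growth separating the points of a fibre
-/

open Set Filter Topology Polynomial Function Metric

namespace Vale.Agent.P179R

theorem cpt : CPT := by
  intro S hS G X _ _ _ _ p h hfin hinf x₀
  classical
  let P : Set (OnePoint ℂ) := insert OnePoint.infty (((↑) : ℂ → OnePoint ℂ) '' S)
  have : Finite P := ((hS.image _).insert _).to_subtype
  have hend : ∀ c : P, ∃ g : G, End p c.1 g := by
    rintro ⟨_, rfl | ⟨a, ha, rfl⟩⟩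
    exacts [hinf, hfin a ha]
  choose g hg using hend
  choose E hE n ρ k hn hρ hk hpk hinj hex using fun c : P => (hg c).discs h
  have hc : ∀ (c : P) x, c.1 ≠ p x := by
    rintro ⟨_, rfl | ⟨a, ha, rfl⟩⟩ x hx
    · exact OnePoint.infty_ne_coe _ hx
    · exact h.mem x (OnePoint.coe_injective hx ▸ ha)
  have := h.t2
  obtain ⟨f, hf1, ⟨m, φ, hm, hφ1, hφ2, hφ3⟩, hf3⟩ := exists_pole_fill (E := Σ c : P, E c)
    h.isLocalHomeomorph (fun α => α.1.1) (fun α => n α.1) (fun α => ρ α.1)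
    (fun α => k α.1 α.2) (fun α => hn α.1) (fun α => hρ α.1) (fun α => hc α.1)
    (fun α => hk α.1 α.2) (fun α => hpk α.1 α.2) (by
      rintro ⟨c, α⟩ ⟨c', β⟩ q q' hcc h1 h2 h3 h4 h5
      obtain rfl : c = c' := Subtype.ext hcc
      obtain ⟨rfl, h6⟩ := hinj c α β q q' h1 h2 h3 h4 h5
      exact ⟨rfl, h6⟩) (by
      intro y
      by_cases hy : y ∈ P
      · refine ⟨_, uu_near y (hn ⟨y, hy⟩) (half_pos (hρ ⟨y, hy⟩)), ∅, isCompact_empty,
          fun x hx => Or.inr ?_⟩
        obtain ⟨q, h1, h2, h3⟩ := hx (p x) rfl (hc ⟨y, hy⟩ x).symm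
        obtain ⟨α, q', h4, h5, h6⟩ := hex ⟨y, hy⟩ x q h1 (by linarith [hρ ⟨y, hy⟩]) h3
        exact ⟨⟨⟨y, hy⟩, α⟩, q', h4, h5 ▸ h2.le, h6⟩
      · induction y using OnePoint.rec with
        | infty => exact absurd (mem_insert _ _) hy
        | coe z =>
          obtain ⟨x₁, rfl⟩ := h.surj z fun hz => hy (mem_insert_of_mem _ ⟨z, hz, rfl⟩)
          obtain ⟨σ, -, h1, -⟩ := h.exists_local x₁
          obtain ⟨B, hB1, hB2, hB3⟩ := local_compact_nhds h1
          refine ⟨(↑) '' B, OnePoint.isOpenEmbedding_coe.image_mem_nhds.2 hB1,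
            ⋃ a : G, (fun z => a • σ z) '' B, isCompact_iUnion fun a => hB3.image_of_continuousOn
              fun z hz => ((h.cont a).continuousAt.comp (hB2 hz).1).continuousWithinAt, ?_⟩
          rintro x ⟨z, hz, hx⟩
          obtain rfl : z = p x := OnePoint.coe_injective hx
          obtain ⟨a, ha⟩ := h.trans _ x (hB2 hz).2
          exact Or.inl (mem_iUnion.2 ⟨a, _, hz, ha⟩)) x₀
  let F : X → ℂ := fun x => if x = x₀ then φ (p x₀) else (p x - p x₀) ^ m * f x
  have hF0 : ∀ᶠ y in 𝓝 x₀, F y = φ (p y) := by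
    filter_upwards [eventually_nhdsWithin_iff.1 hφ3] with y hy
    by_cases h1 : y = x₀
    · simp only [F, h1, if_true]
    · simp only [F, h1, if_false]
      exact hy h1
  refine ⟨F, fun x => ?_, ?_, ?_, fun a ha => ?_⟩
  · by_cases hx : x = x₀
    · subst hx
      exact ⟨φ, hφ1, hF0⟩
    · obtain ⟨ψ, hψ1, hψ2⟩ := hf1 x hx
      refine ⟨fun z => (z - p x₀) ^ m * ψ z, ((analyticAt_id.sub analyticAt_const).pow m).mul hψ1,
        ?_⟩
      filter_upwards [hψ2, isOpen_ne.mem_nhds hx] with y h1 h2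
      simp only [F, h2, if_false, h1]
  · have h1 : ∀ᶠ y in 𝓝 x₀, ‖F y‖ ≤ ‖φ (p x₀)‖ + 1 := by
      have h2 := (hφ1.continuousAt.comp h.continuous.continuousAt).norm.eventually
        (ge_mem_nhds (lt_add_one ‖φ (p x₀)‖))
      filter_upwards [h2, hF0] with y h3 h4
      rw [h4]
      exact h3
    obtain ⟨C, hC⟩ := hf3 _ h1
    refine ⟨max (‖φ (p x₀)‖ + 1) (|C| * (1 + ‖p x₀‖) ^ m), m, fun x => ?_⟩
    have h2 : 1 ≤ (1 + ‖p x‖) ^ m := one_le_pow₀ (by linarith [norm_nonneg (p x)])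
    by_cases hx : ‖F x‖ ≤ ‖φ (p x₀)‖ + 1
    · refine hx.trans ((le_max_left _ _).trans (le_mul_of_one_le_right ?_ h2))
      exact le_max_of_le_left (by positivity)
    · have h3 : x ≠ x₀ := by
        rintro rfl
        exact hx h1.self_of_nhds
      have h4 : ‖p x - p x₀‖ ≤ (1 + ‖p x₀‖) * (1 + ‖p x‖) := by
        nlinarith [norm_sub_le (p x) (p x₀), norm_nonneg (p x), norm_nonneg (p x₀)]
      simp only [F, h3, if_false, norm_mul, norm_pow]
      calc ‖p x - p x₀‖ ^ m * ‖f x‖ ≤ ((1 + ‖p x₀‖) * (1 + ‖p x‖)) ^ m * |C| := by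
            gcongr
            exact (hC x hx).trans (le_abs_self C)
        _ = |C| * (1 + ‖p x₀‖) ^ m * (1 + ‖p x‖) ^ m := by rw [mul_pow]; ring
        _ ≤ _ := by
            gcongr
            exact le_max_right _ _
  · simpa only [F, if_true] using hφ2
  · have h1 : a • x₀ ≠ x₀ := fun h1 => ha (h.free a x₀ h1)
    simp only [F, h1, if_false, h.inv, sub_self, zero_pow hm.ne', zero_mul]

end Vale.Agent.P179R
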