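import Vale.Agent.P179R.Defs

/-!
# Periodic functions of moderate growth on a half plane
-/

open Set Filter Topology Function Complex
open scoped Real

namespace Vale.Agent.P179R

theorem cusp : CUSP := by
  intro f h R C m hh hper hdiff hbd
  classical
  let G : ℂ → ℂ := fun w => if R < w.im then Periodic.qParam h w ^ m * f w else 0
  have hq (w : ℂ) : Periodic.qParam h (w + h) = Periodic.qParam h w := by
    have : (h : ℂ) ≠ 0 := by exact_mod_cast hh.ne'
    rw [Periodic.qParam, Periodic.qParam,
      show 2 * π * I * (w + h) / h = 2 * π * I * w / h + 2 * π * I by field_simp,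
      Complex.exp_add, Complex.exp_two_pi_mul_I, mul_one]
  have hG : Periodic G h := fun w => by
    simp only [G, add_im, ofReal_im, add_zero]
    split_ifs with hw
    · rw [hq, hper w hw]
    · rfl
  have hev : ∀ᶠ w in comap im atTop, R < w.im := tendsto_comap.eventually (eventually_gt_atTop R)
  have h1 : ∀ᶠ w in comap im atTop, DifferentiableAt ℂ G w := by
    filter_upwards [hev] with w hw
    refine (((Periodic.differentiable_qParam (h := h) w).pow m).mul (hdiff w hw)).congr_of_eventuallyEq ?_
    filter_upwards [(isOpen_lt continuous_const continuous_im).mem_nhds hw] with z hz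
    exact if_pos hz
  have h2 : BoundedAtFilter (comap im atTop) G := by
    refine Asymptotics.IsBigO.of_bound C ?_
    filter_upwards [hev] with w hw
    simpa [G, hw] using hbd w hw
  refine ⟨fun w hw => ?_, Periodic.cuspFunction h G, ?_, ?_⟩
  · have h3 := Periodic.eq_cuspFunction hh.ne' hG w
    rw [Periodic.cuspFunction_eq_of_nonzero _ _ (Periodic.qParam_ne_zero w)] at h3
    obtain ⟨k, hk⟩ := Periodic.qParam_left_inv_mod_period hh.ne' w
    have h4 : R < (Periodic.invQParam h (Periodic.qParam h w)).im := by
      rw [hk]
      simpa using hw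
    simp only [G, if_pos hw, if_pos h4,
      Periodic.qParam_right_inv hh.ne' (Periodic.qParam_ne_zero w)] at h3
    exact mul_left_cancel₀ (pow_ne_zero _ (Periodic.qParam_ne_zero w)) h3
  · exact analyticAt_of_differentiable_on_punctured_nhds_of_continuousAt
      (Periodic.eventually_differentiableAt_cuspFunction_nhds_ne_zero hh hG h1)
      (Periodic.differentiableAt_cuspFunction_zero hh hG h1 h2).continuousAt
  · filter_upwards [(Periodic.invQParam_tendsto hh).eventually hev, self_mem_nhdsWithin]
      with q h3 h4
    rw [Periodic.cuspFunction_eq_of_nonzero _ _ h4]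
    simp only [G, if_pos h3, Periodic.qParam_right_inv hh.ne' h4]

end Vale.Agent.P179R
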