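import Vale.Agent.P179R.Defs

/-!
# The étalé space of the germs of analytic roots
-/

open Set Filter Topology Polynomial Function

namespace Vale.Agent.P179R

noncomputable section

namespace EtH

theorem evenly_of_sections {Y B ι : Type} [TopologicalSpace Y] [T2Space Y] [TopologicalSpace B]
    [Finite ι] [TopologicalSpace ι] [DiscreteTopology ι] {q : Y → B} (hq : Continuous q)
    {U : Set B} (hU : IsOpen U) (s : ι → U → Y) (hs : ∀ k, Continuous (s k))
    (hqs : ∀ k t, q (s k t) = t) (hinj : ∀ k l t, s k t = s l t → k = l)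
    (hsurj : ∀ y (h : q y ∈ U), ∃ k, y = s k ⟨q y, h⟩) {x : B} (hx : x ∈ U) :
    IsEvenlyCovered q x ι := by
  choose idx hidx using hsurj
  have hb : Continuous fun y : q ⁻¹' U => (⟨q y, y.2⟩ : U) :=
    (hq.comp continuous_subtype_val).subtype_mk _
  have hidx' : ∀ (y : q ⁻¹' U) k, idx y y.2 = k ↔ y.1 = s k ⟨q y, y.2⟩ := fun y k =>
    ⟨fun h => h ▸ hidx y y.2, fun h => hinj _ _ _ ((hidx y y.2).symm.trans h)⟩
  have hc : Continuous fun y : q ⁻¹' U => idx y y.2 := by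
    refine continuous_iff_isClosed.2 fun A _ => ?_
    have : (fun y : q ⁻¹' U => idx y y.2) ⁻¹' A =
        ⋃ k ∈ A, {y : q ⁻¹' U | y.1 = s k ⟨q y, y.2⟩} := by
      ext y
      simp only [mem_preimage, mem_iUnion, mem_ofPred_eq, ← hidx', exists_prop, exists_eq_right']
    rw [this]
    exact (toFinite A).isClosed_biUnion fun k _ =>
      isClosed_eq continuous_subtype_val ((hs k).comp hb)
  refine ⟨inferInstance, U, hx, hU, hU.preimage hq,
    { toFun := fun y => (⟨q y, y.2⟩, idx y y.2)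
      invFun := fun v => ⟨s v.2 v.1, by rw [mem_preimage, hqs]; exact v.1.2⟩
      left_inv := fun y => Subtype.ext (hidx y y.2).symm
      right_inv := fun v => ?_
      continuous_toFun := hb.prodMk hc
      continuous_invFun := ?_ }, fun _ => rfl⟩
  · have h1 : (⟨q (s v.2 v.1), by rw [hqs]; exact v.1.2⟩ : U) = v.1 := Subtype.ext (hqs _ _)
    refine Prod.ext h1 ?_
    exact (hidx' ⟨s v.2 v.1, by rw [mem_preimage, hqs]; exact v.1.2⟩ v.2).2 (by rw [h1])
  · refine Continuous.subtype_mk ?_ _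
    exact continuous_prod_of_discrete_right.2 fun k => hs k

theorem eq_of_jets {f g : ℂ → ℂ} {z : ℂ} (hf : AnalyticAt ℂ f z) (hg : AnalyticAt ℂ g z)
    (h : ∀ n, iteratedDeriv n f z = iteratedDeriv n g z) : f =ᶠ[𝓝 z] g := by
  have h1 : analyticOrderAt (f - g) z = ⊤ := by
    refine ENat.eq_top_iff_forall_ge.2 fun n => ?_
    rw [natCast_le_analyticOrderAt_iff_iteratedDeriv_eq_zero (hf.sub hg)]
    intro i _
    rw [iteratedDeriv_sub hf.contDiffAt hg.contDiffAt, h, sub_self]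
  filter_upwards [analyticOrderAt_eq_top.1 h1] with t ht
  exact sub_eq_zero.1 ht

theorem root_mem {f : ℂ[X]} (hf : f ≠ 0) {n : ℕ} (hn : f.natDegree = n) (r : Fin n → ℂ)
    (hr : Injective r) (h0 : ∀ k, f.eval (r k) = 0) {a : ℂ} (ha : f.eval a = 0) :
    ∃ k, a = r k := by
  by_contra h
  push Not at h
  refine hf (eq_zero_of_natDegree_lt_card_of_eval_eq_zero f (ι := Option (Fin n))
    (f := fun o => o.elim a r) ?_ ?_ (by simp [hn]))
  · rintro (_ | k) (_ | l) e
    · rfl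
    · exact (h l e).elim
    · exact (h k e.symm).elim
    · exact congrArg _ (hr e)
  · rintro (_ | k)
    exacts [ha, h0 k]

/-- the local structure of the roots -/
theorem loc_struct {P : ℂ[X][X]} (hP : P.Monic) {z : ℂ} (h : LocRoots P z) :
    ∃ (U : Set ℂ) (g : Fin P.natDegree → ℂ → ℂ), IsOpen U ∧ z ∈ U ∧
      (∀ k, AnalyticOnNhd ℂ (g k) U) ∧ (∀ k, ∀ t ∈ U, P.evalEval t (g k t) = 0) ∧
      (∀ k l, ∀ t ∈ U, g k =ᶠ[𝓝 t] g l → k = l) ∧
      ∀ t ∈ U, ∀ f : ℂ → ℂ, AnalyticAt ℂ f t → (∀ᶠ s in 𝓝 t, P.evalEval s (f s) = 0) →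
        ∃ k, f =ᶠ[𝓝 t] g k := by
  obtain ⟨g, hg, hg0, hg1⟩ := h
  have : ∀ᶠ t in 𝓝 z, ∀ k, AnalyticAt ℂ (g k) t ∧ P.evalEval t (g k t) = 0 :=
    eventually_all.2 fun k => (hg k).eventually_analyticAt.and (hg0 k)
  obtain ⟨r, hr, hb⟩ := Metric.eventually_nhds_iff_ball.1 this
  have hA : ∀ k, AnalyticOnNhd ℂ (g k) (Metric.ball z r) := fun k t ht => (hb t ht k).1
  have hD : ∀ k l, ∀ t ∈ Metric.ball z r, g k =ᶠ[𝓝 t] g l → k = l := fun k l t ht e =>
    hg1 k l (eventually_of_mem (Metric.ball_mem_nhds z hr)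
      ((hA k).eqOn_of_preconnected_of_eventuallyEq (hA l) (convex_ball z r).isPreconnected ht e))
  refine ⟨Metric.ball z r, g, Metric.isOpen_ball, Metric.mem_ball_self hr, hA,
    fun k t ht => (hb t ht k).2, hD, fun t ht f hf hf0 => ?_⟩
  by_contra hc
  push Not at hc
  have h1 : ∀ᶠ s in 𝓝[≠] t, ∀ k, f s ≠ g k s := eventually_all.2 fun k =>
    (hf.eventually_eq_or_eventually_ne (hA k t ht)).resolve_left (hc k)
  have h2 : ∀ᶠ s in 𝓝[≠] t, ∀ k l, g k s = g l s → k = l :=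
    eventually_all.2 fun k => eventually_all.2 fun l => by
      by_cases e : k = l
      · exact Eventually.of_forall fun _ _ => e
      · filter_upwards [((hA k t ht).eventually_eq_or_eventually_ne (hA l t ht)).resolve_left
          fun e' => e (hD k l t ht e')] with s hs hs' using (hs hs').elim
  obtain ⟨s, hs1, hs2, hs3, hs4⟩ := (h1.and (h2.and ((hf0.filter_mono nhdsWithin_le_nhds).and
    ((Metric.isOpen_ball.eventually_mem ht).filter_mono nhdsWithin_le_nhds)))).exists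
  obtain ⟨k, hk⟩ := root_mem (hP.map (evalRingHom s)).ne_zero (hP.natDegree_map _)
    (fun k => g k s) hs2 (fun k => by rw [map_evalRingHom_eval]; exact (hb s hs4 k).2)
    (a := f s) (by rw [map_evalRingHom_eval]; exact hs3)
  exact hs1 k hk

/-- the space of jets of analytic roots -/
def Y (P : ℂ[X][X]) : Set (ℂ × (ℕ → ℂ)) :=
  {v | ∃ g : ℂ → ℂ, AnalyticAt ℂ g v.1 ∧ (∀ᶠ t in 𝓝 v.1, P.evalEval t (g t) = 0) ∧
    ∀ n, v.2 n = iteratedDeriv n g v.1}

theorem loc_sec {P : ℂ[X][X]} (hP : P.Monic) {z : ℂ} (h : LocRoots P z) :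
    ∃ (U : Set ℂ) (g : Fin P.natDegree → ℂ → ℂ) (s : Fin P.natDegree → U → Y P),
      IsOpen U ∧ z ∈ U ∧ (∀ k, AnalyticOnNhd ℂ (g k) U) ∧ (∀ k, Continuous (s k)) ∧
      (∀ k t, (s k t).1.1 = t) ∧ (∀ k t, (s k t).1.2 0 = g k t) ∧
      (∀ k l t, s k t = s l t → k = l) ∧
      ∀ (y : Y P) (h : y.1.1 ∈ U), ∃ k, y = s k ⟨y.1.1, h⟩ := by
  obtain ⟨U, g, hU, hz, hA, h0, hD, hE⟩ := loc_struct hP h
  refine ⟨U, g, fun k t => ⟨(t, fun n => iteratedDeriv n (g k) t), g k, hA k t t.2,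
    eventually_of_mem (hU.mem_nhds t.2) (h0 k), fun _ => rfl⟩, hU, hz, hA, fun k => ?_,
    fun _ _ => rfl, fun k t => by simp, fun k l t e => ?_, fun y hy => ?_⟩
  · refine Continuous.subtype_mk (continuous_subtype_val.prodMk (continuous_pi fun n => ?_)) _
    rw [iteratedDeriv_eq_iterate]
    exact continuousOn_iff_continuous_domRestrict.1 ((hA k).iterated_deriv n).continuousOn
  · refine hD k l t t.2 (eq_of_jets (hA k t t.2) (hA l t t.2) fun n => ?_)
    exact congrFun (congrArg (fun v : Y P => v.1.2) e) n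
  · obtain ⟨f, hf, hf0, hf1⟩ := y.2
    obtain ⟨k, hk⟩ := hE _ hy f hf hf0
    refine ⟨k, Subtype.ext (Prod.ext rfl (funext fun n => ?_))⟩
    exact (hf1 n).trans (hk.iteratedDeriv_eq n)

end EtH

open EtH in
theorem et : ET := by
  intro P hP
  have hq : Continuous fun y : Y P => y.1.1 := continuous_fst.comp continuous_subtype_val
  have hcov : ∀ z, LocRoots P z →
      IsEvenlyCovered (fun y : Y P => y.1.1) z (Fin P.natDegree) := fun z hz => by
    obtain ⟨U, g, s, hU, hzU, -, hs, h1, -, h2, h3⟩ := loc_sec hP hz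
    exact evenly_of_sections hq hU s hs h1 h2 h3 hzU
  refine ⟨Y P, inferInstance, fun y => y.1.1, fun y => y.1.2 0,
    fun z hz => (hcov z hz).to_isEvenlyCovered_preimage, fun y hy => ?_, fun y => ?_,
    fun z hz => ?_, fun z g hg hg0 => ⟨⟨(z, fun n => iteratedDeriv n g z), g, hg, hg0,
      fun _ => rfl⟩, rfl, by simp⟩⟩
  · obtain ⟨U, g, s, hU, hzU, hA, hs, h1, h0, h2, h3⟩ := loc_sec hP hy
    obtain ⟨k, hk⟩ := h3 y hzU
    refine ⟨g k, hA k _ hzU, ?_⟩
    have hcl : ∀ l, l ≠ k → ∀ᶠ y' in 𝓝 y, ∀ h : y'.1.1 ∈ U, y' ≠ s l ⟨y'.1.1, h⟩ := by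
      intro l hl
      have hb : Continuous fun y' : (fun y : Y P => y.1.1) ⁻¹' U => s l ⟨y'.1.1.1, y'.2⟩ :=
        (hs l).comp ((hq.comp continuous_subtype_val).subtype_mk _)
      have ho := (hU.preimage hq).isOpenMap_subtype_val _
        (isClosed_eq continuous_subtype_val hb).isOpen_compl
      refine eventually_of_mem (ho.mem_nhds ⟨⟨y, hzU⟩, fun e => hl (h2 _ _ ⟨y.1.1, hzU⟩ ?_), rfl⟩) ?_
      · exact Eq.trans (Eq.symm e) hk
      · rintro _ ⟨y', hy', rfl⟩ h
        exact hy'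
    filter_upwards [eventually_all.2 fun l => eventually_all.2 (hcl l),
      hq.continuousAt.eventually (hU.mem_nhds hzU)] with y' e1 e2
    obtain ⟨l, hl⟩ := h3 y' e2
    obtain rfl : l = k := by_contra fun hne => e1 l hne e2 hl
    exact (congrArg (fun v : Y P => v.1.2 0) hl).trans (h0 _ _)
  · obtain ⟨g, -, hg0, hg1⟩ := y.2
    have := hg0.self_of_nhds
    simp only [hg1 0, iteratedDeriv_zero]
    exact this
  · exact Set.finite_coe_iff.1 ((hcov z hz).fiberHomeomorph.toEquiv.finite_iff.1 inferInstance)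

end

end Vale.Agent.P179R
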