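import Vale.Agent.P179R.Defs
import Vale.Agent.P097.H809D.TS

/-!
# Laurent expansion of meromorphic germs
-/

open Set Filter Topology Function
open Vale.Agent.P097.H809D

namespace Vale.Agent.P179R

noncomputable section

/-- the variable -/
def sX : LaurentSeries ℂ := HahnSeries.single 1 1

theorem sX_ne : sX ≠ 0 := HahnSeries.single_ne_zero one_ne_zero

theorem sX_pow (m : ℕ) : sX ^ m = HahnSeries.single (m : ℤ) 1 := by
  simp [sX, HahnSeries.single_pow]

/-- the Taylor series as a Laurent series -/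
def TL (g : ℂ → ℂ) : LaurentSeries ℂ := HahnSeries.ofPowerSeries ℤ ℂ (TS g)

theorem TL_pow_mul {g : ℂ → ℂ} (hg : AnalyticAt ℂ g 0) (m : ℕ) :
    TL (fun q => q ^ m * g q) = sX ^ m * TL g := by
  have h : AnalyticAt ℂ (fun x : ℂ => x) 0 := analyticAt_id
  rw [TL, TS_mul (h.fun_pow m) hg, TS_pow h, TS_id, map_mul, map_pow, HahnSeries.ofPowerSeries_X]
  rfl

theorem TL_congr {f g : ℂ → ℂ} (hf : AnalyticAt ℂ f 0) (hg : AnalyticAt ℂ g 0)
    (h : f =ᶠ[𝓝[≠] 0] g) : TL f = TL g := by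
  rw [TL, TS_congr ((hf.continuousAt.eventuallyEq_nhds_iff_eventuallyEq_nhdsNE
    hg.continuousAt).1 h), TL]

theorem TL_eq_zero {g : ℂ → ℂ} (hg : AnalyticAt ℂ g 0) (h : TL g = 0) : g =ᶠ[𝓝 0] 0 := by
  have h1 : TS g = 0 := HahnSeries.ofPowerSeries_injective (h.trans (map_zero _).symm)
  have h2 (n : ℕ) : iteratedDeriv n g 0 = 0 := by
    have := coeff_TS g n
    rw [h1, map_zero] at this
    exact (mul_eq_zero.1 this.symm).resolve_left
      (inv_ne_zero (by exact_mod_cast n.factorial_ne_zero))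
  have h3 := hg.hasFPowerSeriesAt
  simp only [h2, zero_div] at h3
  exact h3.locally_zero_iff.2 (by ext n; simp [FormalMultilinearSeries.ofScalars])

/-- `L` is the Laurent expansion of `f` -/
def Rep (f : ℂ → ℂ) (L : LaurentSeries ℂ) : Prop :=
  ∃ (m : ℕ) (g : ℂ → ℂ), AnalyticAt ℂ g 0 ∧ (∀ᶠ q in 𝓝[≠] 0, g q = q ^ m * f q) ∧
    sX ^ m * L = TL g

theorem Rep.unique {f : ℂ → ℂ} {L L' : LaurentSeries ℂ} (h : Rep f L) (h' : Rep f L') :
    L = L' := by
  obtain ⟨m, g, h1, h2, h3⟩ := h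
  obtain ⟨n, g', k1, k2, k3⟩ := h'
  have h : AnalyticAt ℂ (fun x : ℂ => x) 0 := analyticAt_id
  have e := TL_congr ((h.fun_pow n).fun_mul h1) ((h.fun_pow m).fun_mul k1) (by
    filter_upwards [h2, k2] with q a b
    rw [a, b]
    ring)
  rw [TL_pow_mul h1, TL_pow_mul k1, ← h3, ← k3] at e
  exact mul_left_cancel₀ (mul_ne_zero (pow_ne_zero n sX_ne) (pow_ne_zero m sX_ne))
    (by linear_combination e)

theorem exists_rep {f : ℂ → ℂ} (h : MeromorphicAt f 0) : ∃ L, Rep f L := by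
  obtain ⟨m, h⟩ := h
  exact ⟨TL _ / sX ^ m, m, _, h, .of_forall fun q => by simp,
    mul_div_cancel₀ _ (pow_ne_zero m sX_ne)⟩

theorem Rep.add {f f' : ℂ → ℂ} {L L' : LaurentSeries ℂ} (h : Rep f L) (h' : Rep f' L') :
    Rep (f + f') (L + L') := by
  obtain ⟨m, g, h1, h2, h3⟩ := h
  obtain ⟨n, g', k1, k2, k3⟩ := h'
  have h : AnalyticAt ℂ (fun x : ℂ => x) 0 := analyticAt_id
  refine ⟨m + n, fun q => q ^ n * g q + q ^ m * g' q,
    ((h.fun_pow n).fun_mul h1).fun_add ((h.fun_pow m).fun_mul k1), ?_, ?_⟩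
  · filter_upwards [h2, k2] with q a b
    rw [a, b, Pi.add_apply]
    ring
  · rw [TL, TS_add ((h.fun_pow n).fun_mul h1) ((h.fun_pow m).fun_mul k1), map_add, ← TL, ← TL,
      TL_pow_mul h1, TL_pow_mul k1, ← h3, ← k3]
    ring

theorem Rep.mul {f f' : ℂ → ℂ} {L L' : LaurentSeries ℂ} (h : Rep f L) (h' : Rep f' L') :
    Rep (f * f') (L * L') := by
  obtain ⟨m, g, h1, h2, h3⟩ := h
  obtain ⟨n, g', k1, k2, k3⟩ := h'
  refine ⟨m + n, fun q => g q * g' q, h1.fun_mul k1, ?_, ?_⟩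
  · filter_upwards [h2, k2] with q a b
    rw [a, b, Pi.mul_apply]
    ring
  · rw [TL, TS_mul h1 k1, map_mul, ← TL, ← TL, ← h3, ← k3]
    ring

theorem rep_const {f : ℂ → ℂ} {c : ℂ} (h : ∀ q, f q = c) : Rep f (HahnSeries.C c) :=
  ⟨0, fun _ => c, analyticAt_const, .of_forall fun q => by simp [h],
    by rw [TL, TS_const, HahnSeries.ofPowerSeries_C, pow_zero, one_mul]⟩

theorem coeff_TL_scale {g : ℂ → ℂ} (hg : AnalyticAt ℂ g 0) (c : ℂ) (n : ℤ) :
    (TL fun q => g (c * q)).coeff n = c ^ n * (TL g).coeff n := by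
  rcases n with n | n
  · simp only [TL, Int.ofNat_eq_natCast, HahnSeries.ofPowerSeries_apply_coeff, coeff_TS_scale hg,
      zpow_natCast]
  · simp only [TL, PowerSeries.coeff_coe, if_pos (Int.negSucc_lt_zero n), mul_zero]

theorem lau : LAU := by
  choose Λ hΛ using fun f : M0 => exists_rep f.2
  refine ⟨⟨⟨⟨Λ, (hΛ 1).unique (rep_const (c := 1) fun _ => rfl)⟩,
    fun f g => (hΛ (f * g)).unique ((hΛ f).mul (hΛ g))⟩,
    ((hΛ 0).unique (rep_const (c := 0) fun _ => rfl)).trans (map_zero _),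
    fun f g => (hΛ (f + g)).unique ((hΛ f).add (hΛ g))⟩, fun f => ⟨fun h => ?_, fun h => ?_⟩,
    fun f c h => (hΛ f).unique (rep_const h), fun f h => (hΛ f).unique ?_,
    fun ζ hζ f g h n => ?_⟩
  · obtain ⟨m, g, h1, h2, h3⟩ := hΛ f
    have h4 : Λ f = 0 := h
    rw [h4, mul_zero] at h3
    filter_upwards [h2, (TL_eq_zero h1 h3.symm).filter_mono nhdsWithin_le_nhds,
      self_mem_nhdsWithin] with q a b c
    exact (mul_eq_zero.1 (a.symm.trans b)).resolve_left (pow_ne_zero _ c)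
  · refine (hΛ f).unique ⟨0, fun _ => 0, analyticAt_const, ?_, ?_⟩
    · filter_upwards [h] with q a
      simp [a]
    · rw [TL, TS_const, map_zero, map_zero, mul_zero]
  · exact ⟨0, fun q => q, analyticAt_id, .of_forall fun q => by simp [h],
      by rw [TL, TS_id, HahnSeries.ofPowerSeries_X, pow_zero, one_mul]⟩
  · change (Λ g).coeff n = ζ ^ n * (Λ f).coeff n
    obtain ⟨m, G, h1, h2, h3⟩ := hΛ f
    have h4 : AnalyticAt ℂ (fun q => G (ζ * q)) 0 :=
      AnalyticAt.comp_of_eq h1 (by fun_prop) (mul_zero ζ)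
    have h5 : Tendsto (fun q : ℂ => ζ * q) (𝓝[≠] 0) (𝓝[≠] 0) := by
      refine tendsto_nhdsWithin_iff.2 ⟨tendsto_nhdsWithin_of_tendsto_nhds ?_, ?_⟩
      · exact Continuous.tendsto' (by fun_prop) _ _ (mul_zero ζ)
      · filter_upwards [self_mem_nhdsWithin] with q hq
        exact mul_ne_zero hζ hq
    obtain ⟨L, h6⟩ : ∃ L, sX ^ m * L = TL fun q => (ζ ^ m)⁻¹ * G (ζ * q) :=
      ⟨_, mul_div_cancel₀ _ (pow_ne_zero m sX_ne)⟩
    have h7 : Λ g = L := (hΛ g).unique ⟨m, _, analyticAt_const.fun_mul h4, by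
      filter_upwards [h, h5.eventually h2] with q a b
      rw [a, b, mul_pow]
      field_simp, h6⟩
    rw [TL, TS_mul analyticAt_const h4, TS_const, map_mul, HahnSeries.ofPowerSeries_C, ← TL,
      HahnSeries.C_mul_eq_smul] at h6
    have h8 := congrArg (fun x : LaurentSeries ℂ => x.coeff (n + m)) h6
    have h9 := congrArg (fun x : LaurentSeries ℂ => x.coeff (n + m)) h3
    simp only [sX_pow, HahnSeries.coeff_single_mul_add, one_mul, HahnSeries.coeff_smul,
      coeff_TL_scale h1, smul_eq_mul] at h8 h9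
    rw [h7, h8, h9, zpow_add₀ hζ, zpow_natCast]
    field_simp

end

end Vale.Agent.P179R
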