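import Vale.Agent.P179R.Ift

/-!
# Formal roots converge
-/

open Set Filter Topology Polynomial Function

namespace Vale.Agent.P179R

noncomputable section

/-- polynomials as power series -/
abbrev cc : ℂ[X] →+* PowerSeries ℂ := Polynomial.coeToPowerSeries.ringHom

theorem X_pow_dvd_cc (a : ℂ[X]) (k : ℕ) :
    (PowerSeries.X : PowerSeries ℂ) ^ k ∣ cc a ↔ (X : ℂ[X]) ^ k ∣ a := by
  rw [PowerSeries.X_pow_dvd_iff, Polynomial.X_pow_dvd_iff]
  simp [Polynomial.coeff_coe]

theorem eval_map_cc (P : ℂ[X][X]) (a : ℂ[X]) : (P.map cc).eval (cc a) = cc (P.eval a) := by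
  rw [eval_map, eval₂_hom]

/-- a simple formal root is approximated to any order by an analytic root -/
theorem conv (P : ℂ[X][X]) (y : PowerSeries ℂ) (h0 : (P.map cc).eval y = 0)
    (h1 : ((derivative P).map cc).eval y ≠ 0) :
    ∀ᶠ M in atTop, ∃ u : ℂ → ℂ, AnalyticAt ℂ u 0 ∧ u 0 = 0 ∧
      ∀ᶠ s in 𝓝 (0 : ℂ), P.evalEval s ((PowerSeries.trunc (M + 1) y).eval s + s ^ M * u s) = 0 := by
  classical
  set D := ((derivative P).map cc).eval y with hD
  have hex : ∃ m, ¬ (PowerSeries.X : PowerSeries ℂ) ^ (m + 1) ∣ D := by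
    by_contra h
    push Not at h
    apply h1
    ext n
    exact PowerSeries.X_pow_dvd_iff.1 (h n) n (Nat.lt_succ_self n)
  set m := Nat.find hex with hm
  have hm1 : ¬ (PowerSeries.X : PowerSeries ℂ) ^ (m + 1) ∣ D := Nat.find_spec hex
  have hm0 : (PowerSeries.X : PowerSeries ℂ) ^ m ∣ D := by
    rcases Nat.eq_zero_or_pos m with h | h
    · rw [h, pow_zero]; exact one_dvd _
    · have := Nat.find_min hex (m := m - 1) (by omega)
      rw [show m - 1 + 1 = m by omega] at this
      exact not_not.1 this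
  filter_upwards [eventually_ge_atTop m] with M hM
  set a := PowerSeries.trunc (M + 1) y with ha
  obtain ⟨w, hw⟩ : ∃ w, y = cc a + PowerSeries.X ^ (M + 1) * w :=
    ⟨_, by rw [add_comm]; exact PowerSeries.eq_X_pow_mul_shift_add_trunc (M + 1) y⟩
  have hDa : (PowerSeries.X : PowerSeries ℂ) ^ (M + 1) ∣ D - cc ((derivative P).eval a) := by
    rw [← eval_map_cc]
    refine Dvd.dvd.trans ⟨w, ?_⟩ (sub_dvd_eval_sub y (cc a) _)
    rw [sub_eq_iff_eq_add']; exact hw
  have hle : (PowerSeries.X : PowerSeries ℂ) ^ (m + 1) ∣ PowerSeries.X ^ (M + 1) :=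
    pow_dvd_pow _ (by omega)
  have e0 : (X : ℂ[X]) ^ m ∣ (derivative P).eval a := by
    rw [← X_pow_dvd_cc]
    have := hm0.sub (((pow_dvd_pow _ (Nat.le_succ m)).trans hle).trans hDa)
    rwa [sub_sub_cancel] at this
  have e1 : ¬ (X : ℂ[X]) ^ (m + 1) ∣ (derivative P).eval a := by
    rw [← X_pow_dvd_cc]
    intro h
    apply hm1
    have := (hle.trans hDa).add h
    rwa [sub_add_cancel] at this
  have e2 : (X : ℂ[X]) ^ (m + M + 1) ∣ P.eval a := by
    rw [← X_pow_dvd_cc]
    obtain ⟨k, hk⟩ := (P.map cc).binomExpansion (cc a) (PowerSeries.X ^ (M + 1) * w)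
    rw [← hw, h0, derivative_map, eval_map_cc, eval_map_cc] at hk
    have : cc (P.eval a) = -(cc ((derivative P).eval a) * (PowerSeries.X ^ (M + 1) * w) +
        k * (PowerSeries.X ^ (M + 1) * w) ^ 2) := by linear_combination -hk
    rw [this, dvd_neg]
    refine Dvd.dvd.add ?_ ?_
    · rw [add_assoc, pow_add]
      exact mul_dvd_mul ((X_pow_dvd_cc _ _).2 e0) (dvd_mul_right _ _)
    · rw [mul_pow, ← pow_mul]
      exact ((pow_dvd_pow _ (by omega)).trans (dvd_mul_right _ _)).mul_left _
  set R := (taylor a P).comp (C (X ^ M : ℂ[X]) * X) with hR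
  have hc : ∀ i, R.coeff i = (taylor a P).coeff i * (X ^ M) ^ i := fun i => comp_C_mul_X_coeff
  obtain ⟨Q, hQ⟩ : C (X ^ (m + M) : ℂ[X]) ∣ R := by
    rw [C_dvd_iff_dvd_coeff]
    intro i
    rw [hc]
    match i with
    | 0 => rw [taylor_coeff_zero, pow_zero, mul_one]; exact (pow_dvd_pow _ (by omega)).trans e2
    | 1 => rw [taylor_coeff_one, pow_one, pow_add]; exact mul_dvd_mul e0 dvd_rfl
    | i + 2 =>
      rw [← pow_mul]
      exact (pow_dvd_pow _ (by nlinarith)).mul_left _
  have hX : (X : ℂ[X]) ^ (m + M) ≠ 0 := pow_ne_zero _ X_ne_zero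
  have q0 : Q.evalEval 0 0 = 0 := by
    have h := hc 0
    rw [hQ, coeff_C_mul, taylor_coeff_zero, pow_zero, mul_one] at h
    rw [← h, pow_succ, mul_dvd_mul_iff_left hX, X_dvd_iff] at e2
    rw [evalEval, C_0, ← coeff_zero_eq_eval_zero, ← coeff_zero_eq_eval_zero]
    exact e2
  have q1 : (derivative Q).evalEval 0 0 ≠ 0 := by
    have h := hc 1
    rw [hQ, coeff_C_mul, taylor_coeff_one, pow_one, pow_add, mul_assoc, mul_comm (X ^ M),
      ← mul_assoc, mul_left_inj' (pow_ne_zero _ X_ne_zero)] at h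
    rw [← h, pow_succ, mul_dvd_mul_iff_left (pow_ne_zero _ X_ne_zero), X_dvd_iff] at e1
    rw [evalEval, C_0, ← coeff_zero_eq_eval_zero, ← coeff_zero_eq_eval_zero, coeff_derivative]
    simpa using e1
  obtain ⟨u, hu, hu0, hu1⟩ := exists_root Q 0 0 q0 q1
  refine ⟨u, hu, hu0, ?_⟩
  filter_upwards [hu1] with s hs
  have : R.evalEval s (u s) = 0 := by rw [hQ, evalEval_mul, hs, mul_zero]
  rw [← this, hR, ← map_evalRingHom_eval, ← map_evalRingHom_eval, Polynomial.map_comp,
    eval_comp, taylor_apply, Polynomial.map_comp, eval_comp]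
  simp [add_comm]

theorem poly_eq_zero (b : ℂ[X]) (M : ℕ) (hb : b.natDegree ≤ M) (v : ℂ → ℂ) (hv : ContinuousAt v 0)
    (hv0 : v 0 = 0) (h : ∀ᶠ s in 𝓝 (0 : ℂ), b.eval s = s ^ M * v s) : b = 0 := by
  by_contra hb0
  obtain ⟨c, hc, hc1⟩ := exists_eq_pow_rootMultiplicity_mul_and_not_dvd b hb0 0
  set j := rootMultiplicity 0 b
  rw [C_0, sub_zero] at hc hc1
  have hc0 : c ≠ 0 := by rintro rfl; exact hc1 (dvd_zero _)
  have hj : j ≤ M := by
    rw [hc, natDegree_mul (pow_ne_zero _ X_ne_zero) hc0, natDegree_X_pow] at hb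
    omega
  apply hc1
  rw [X_dvd_iff, coeff_zero_eq_eval_zero]
  have h1 : ∀ᶠ s in 𝓝[≠] (0 : ℂ), c.eval s = s ^ (M - j) * v s := by
    filter_upwards [nhdsWithin_le_nhds h, self_mem_nhdsWithin] with s hs hs0
    rw [hc, eval_mul, eval_pow, eval_X, show M = j + (M - j) by omega, pow_add, mul_assoc] at hs
    exact mul_left_cancel₀ (pow_ne_zero _ hs0) hs
  have h2 : Tendsto (fun s => c.eval s) (𝓝[≠] (0 : ℂ)) (𝓝 (c.eval 0)) :=
    c.continuous.continuousAt.tendsto.mono_left nhdsWithin_le_nhds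
  have h3 : Tendsto (fun s : ℂ => s ^ (M - j) * v s) (𝓝[≠] (0 : ℂ)) (𝓝 (0 ^ (M - j) * v 0)) :=
    ((continuous_pow _).continuousAt.mul hv).tendsto.mono_left nhdsWithin_le_nhds
  rw [hv0, mul_zero] at h3
  exact tendsto_nhds_unique (h2.congr' h1) h3

/-- distinct simple formal roots give distinct analytic roots -/
theorem conv_family {ι : Type} [Finite ι] (P : ℂ[X][X]) (y : ι → PowerSeries ℂ) (hy : Injective y)
    (h0 : ∀ k, (P.map cc).eval (y k) = 0) (h1 : ∀ k, ((derivative P).map cc).eval (y k) ≠ 0) :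
    ∃ g : ι → ℂ → ℂ, (∀ k, AnalyticAt ℂ (g k) 0) ∧
      (∀ k, ∀ᶠ t in 𝓝 (0 : ℂ), P.evalEval t (g k t) = 0) ∧ ∀ k l, g k =ᶠ[𝓝 0] g l → k = l := by
  have A := eventually_all.2 fun k => conv P (y k) (h0 k) (h1 k)
  have B : ∀ᶠ M in atTop, ∀ k l,
      PowerSeries.trunc (M + 1) (y k) = PowerSeries.trunc (M + 1) (y l) → k = l := by
    refine eventually_all.2 fun k => eventually_all.2 fun l => ?_
    by_cases hkl : k = l
    · exact Eventually.of_forall fun _ _ => hkl
    · obtain ⟨n, hn⟩ : ∃ n, PowerSeries.coeff n (y k) ≠ PowerSeries.coeff n (y l) := by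
        by_contra h
        push Not at h
        exact hkl (hy (PowerSeries.ext h))
      filter_upwards [eventually_ge_atTop n] with M hM h
      have := congrArg (fun a : ℂ[X] => a.coeff n) h
      simp only [PowerSeries.coeff_trunc, if_pos (Nat.lt_succ_of_le hM)] at this
      exact (hn this).elim
  obtain ⟨M, hA, hB⟩ := (A.and B).exists
  choose u hu hu0 hu1 using hA
  refine ⟨fun k s => (PowerSeries.trunc (M + 1) (y k)).eval s + s ^ M * u k s, fun k => ?_, hu1,
    fun k l h => hB k l ?_⟩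
  · exact ((PowerSeries.trunc (M + 1) (y k)).differentiable.analyticAt 0).add
      ((analyticAt_id.pow M).mul (hu k))
  · rw [← sub_eq_zero]
    refine poly_eq_zero _ M ((natDegree_sub_le _ _).trans (max_le
      (Nat.lt_succ_iff.1 (PowerSeries.natDegree_trunc_lt _ _))
      (Nat.lt_succ_iff.1 (PowerSeries.natDegree_trunc_lt _ _)))) (fun s => u l s - u k s)
      ((hu l).continuousAt.sub (hu k).continuousAt) (by simp [hu0]) ?_
    filter_upwards [h] with s hs
    rw [eval_sub]
    linear_combination hs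

theorem sub_eq (z : ℂ) : sub (z : OnePoint ℂ) 1 =
    (algebraMap (PowerSeries ℂ) (LaurentSeries ℂ)).comp (cc.comp (taylorAlgHom z).toRingHom) := by
  refine Polynomial.ringHom_ext (fun a => ?_) ?_
  · simp [sub, LaurentSeries.coe_algebraMap]
  · simp [sub, LaurentSeries.coe_algebraMap, add_comm]

theorem sep_map (P : ℂ[X][X]) {L : Type} [Field L] (φ : ℂ[X] →+* L) (hφ : Injective φ)
    (hsep : (P.map (algebraMap ℂ[X] F)).Separable) : (P.map φ).Separable := by
  have := hsep.map (f := IsFractionRing.lift (K := F) hφ)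
  have h2 : (IsFractionRing.lift (K := F) hφ).comp (algebraMap ℂ[X] F) = φ :=
    RingHom.ext fun x => IsFractionRing.lift_algebraMap hφ x
  rwa [Polynomial.map_map, h2] at this

theorem loc : LOC := by
  classical
  intro P hP hsep z hs
  set P0 := P.map (taylorAlgHom z).toRingHom with hP0
  set al := algebraMap (PowerSeries ℂ) (LaurentSeries ℂ) with hal
  have hinj : Injective al := IsFractionRing.injective _ _
  have hmap : P.map (sub (z : OnePoint ℂ) 1) = (P0.map cc).map al := by
    rw [sub_eq, hP0, Polynomial.map_map, Polynomial.map_map, RingHom.comp_assoc]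
  have hsub : Injective (sub (z : OnePoint ℂ) 1) := by
    rw [sub_eq]
    exact hinj.comp ((Polynomial.coe_injective ℂ).comp (taylor_injective z))
  have hsep' : (P.map (sub (z : OnePoint ℂ) 1)).Separable := by
    exact sep_map P _ hsub hsep
  rw [hmap] at hs hsep'
  have hm : (P0.map cc).Monic := (hP.map _).map _
  set T := (P0.map cc).map al with hT
  have hcard : Fintype.card T.roots.toFinset = P.natDegree := by
    rw [Fintype.card_coe, Multiset.toFinset_card_of_nodup (nodup_roots hsep'),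
      ← hs.natDegree_eq_card_roots, hT, hm.natDegree_map, (hP.map _).natDegree_map,
      hP.natDegree_map]
  have e := (Fintype.equivFinOfCardEq hcard).symm
  have hr : ∀ k, T.eval (e k : LaurentSeries ℂ) = 0 := fun k =>
    isRoot_of_mem_roots (Multiset.mem_toFinset.1 (e k).2)
  have hint : ∀ k, ∃ y, al y = (e k : LaurentSeries ℂ) := fun k =>
    IsIntegrallyClosed.isIntegral_iff.1 ⟨P0.map cc, hm, by rw [← eval_map]; exact hr k⟩
  choose y hy using hint
  obtain ⟨g, hg, hg0, hg1⟩ := conv_family P0 y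
    (fun k l h => e.injective (Subtype.ext (by rw [← hy, ← hy, h])))
    (fun k => hinj (by rw [map_zero, ← eval₂_hom, ← eval_map, hy]; exact hr k))
    (fun k h => by
      have h2 := hsep'.eval₂_derivative_ne_zero (RingHom.id _) (x := (e k : LaurentSeries ℂ))
        (by rw [eval₂_id]; exact hr k)
      apply h2
      rw [eval₂_id, ← hy, hT, derivative_map, derivative_map, eval_map, eval₂_hom, h, map_zero])
  have ht : Tendsto (fun t => t - z) (𝓝 z) (𝓝 0) := by
    have := (continuous_sub_right z).tendsto z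
    rwa [sub_self] at this
  have ht' : Tendsto (fun t => t + z) (𝓝 0) (𝓝 z) := by
    have := (continuous_add_const z).tendsto 0
    rwa [zero_add] at this
  refine ⟨fun k t => g k (t - z), fun k => ?_, fun k => ?_, fun k l h => hg1 k l ?_⟩
  · exact (hg k).comp_of_eq (analyticAt_id.sub analyticAt_const) (sub_self z)
  · filter_upwards [ht.eventually (hg0 k)] with t h
    rw [← h, hP0, ← map_evalRingHom_eval, ← map_evalRingHom_eval, Polynomial.map_map]
    congr 2
    refine Polynomial.ringHom_ext (fun a => ?_) ?_ <;> simp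
  · filter_upwards [ht'.eventually h] with t h
    simpa using h

end

end Vale.Agent.P179R
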