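import Vale.Agent.P179R.Ana1
import Vale.Agent.P179R.Cpt
import Vale.Agent.P179R.Cusp
import Vale.Agent.P179R.Lau
import Vale.Agent.P179R.Loc
import Vale.Agent.P179R.Et
import Vale.Agent.P179R.Alg

/-!
# The Riemann existence theorem
-/

open Set Filter Topology Polynomial Function Metric
open scoped Real

namespace Vale.Agent.P179R

variable {Z : Type} [TopologicalSpace Z] {p : Z → ℂ} {S : Set ℂ} {Γ : Type} [Group Γ]
  [MulAction Γ Z]

theorem uu_bound (c : OnePoint ℂ) : ∃ B : ℝ, ∀ e : ℂ, e ≠ 0 → ‖e‖ ≤ 1 →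
    ‖e‖ * (1 + ‖uu c e‖) ≤ B := by
  induction c using OnePoint.rec with
  | infty =>
    refine ⟨2, fun e he h1 => ?_⟩
    rw [uu_infty, norm_inv, mul_add, mul_inv_cancel₀ (norm_ne_zero_iff.2 he)]
    linarith
  | coe a =>
    refine ⟨2 + ‖a‖, fun e he h1 => ?_⟩
    have h2 := norm_add_le a e
    rw [uu_coe]
    nlinarith [norm_nonneg e, norm_nonneg (a + e), norm_nonneg a]

theorem map_uu_ee (c : OnePoint ℂ) (w : ℂ) :
    map (fun w => uu c (ee w)) (𝓝 w) = 𝓝 (uu c (ee w)) := by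
  obtain ⟨h1, h2⟩ := uu_analytic c one_pos (ee_ne w)
  have h3 := h1.hasStrictDerivAt.map_nhds_eq h2
  simp only [pow_one] at h3
  rw [← h3, ← map_qParam one_ne_zero, Filter.map_map]
  rfl

theorem diff_uu_ee (c : OnePoint ℂ) (w : ℂ) : DifferentiableAt ℂ (fun w => uu c (ee w)) w := by
  have h1 := (uu_analytic c one_pos (ee_ne w)).1.differentiableAt
  simp only [pow_one] at h1
  exact h1.comp w (Periodic.differentiable_qParam w)

theorem qParam_add_one {N : ℕ} (w : ℂ) :
    Periodic.qParam N (w + 1) = zeta N * Periodic.qParam N w := by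
  simp only [Periodic.qParam, zeta]
  rw [← Complex.exp_add]
  congr 1
  push_cast
  ring

theorem End.locA [PreconnectedSpace Z] (h : Cov S Γ p) {c : OnePoint ℂ} {g : Γ} (he : End p c g)
    {N : ℕ} (hN : 0 < N) : LocA c N (h.rho g) := by
  obtain ⟨R₀, j, hj1, hj2, hj3'⟩ := he
  obtain ⟨Λ, hΛ0, hΛc, hΛX, hΛr⟩ := lau
  set R := max R₀ 0 with hR
  have hj3 : ∀ w : ℂ, R < w.im → p (j w) = uu c (ee w) := fun w hw =>
    hj3' w ((le_max_left _ _).trans_lt hw)
  have hN' : (0 : ℝ) < N := Nat.cast_pos.2 hN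
  have hjn : ∀ (n : ℕ) w, j (w + n) = (g ^ n)⁻¹ • j w := by
    intro n
    induction n with
    | zero => simp
    | succ n ih =>
      intro w
      push_cast
      rw [← add_assoc, hj2, ih, smul_smul, ← mul_inv_rev, pow_succ]
  have hopen : ∀ w : ℂ, R < w.im → ∀ᶠ w' in 𝓝 w, R < w'.im := fun w hw =>
    Complex.continuous_im.continuousAt.eventually (lt_mem_nhds hw)
  let B := AlgHom.equalizer (h.rho g ^ N) (AlgHom.id ℂ[X] (AA p))
  have hcusp : ∀ f : B, (∀ w : ℂ, R < w.im →
      f.1.1 (j (Periodic.invQParam N (Periodic.qParam N w))) = f.1.1 (j w)) ∧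
      MeromorphicAt (fun q => f.1.1 (j (Periodic.invQParam N q))) 0 := by
    intro f
    obtain ⟨C, m, hC⟩ := pg_of_integral p f.1.2.2
    obtain ⟨D, hD⟩ := uu_bound c
    obtain ⟨h1, φ, h2, h3⟩ := cusp (fun w => f.1.1 (j w)) N R (|C| * D ^ m) (N * m) hN'
      (fun w _ => by
        have h1 : h.rho (g ^ N) f.1 = f.1 := by
          rw [map_pow]
          exact f.2
        rw [Complex.ofReal_natCast, hjn, ← h.rho_apply, h1])
      (fun w hw => by
        obtain ⟨φ, h1, h2⟩ := f.1.2.1 (j w)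
        rw [hj3 w hw] at h1
        refine (h1.differentiableAt.comp w (diff_uu_ee c w)).congr_of_eventuallyEq ?_
        filter_upwards [hj1.continuousAt.eventually h2, hopen w hw] with w' h3 h4
        rw [h3, hj3 w' h4]
        rfl)
      (fun w hw => by
        have h1 := hD (ee w) (ee_ne w)
          (Periodic.norm_qParam_lt_one one_pos ((le_max_right _ _).trans_lt hw)).le
        have h2 : ‖f.1.1 (j w)‖ ≤ |C| * (1 + ‖uu c (ee w)‖) ^ m := by
          rw [← hj3 w hw]
          exact (hC _).trans (by gcongr; exact le_abs_self C)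
        rw [pow_mul, qParam_pow hN, norm_mul, norm_pow]
        calc ‖ee w‖ ^ m * ‖f.1.1 (j w)‖ ≤ ‖ee w‖ ^ m * (|C| * (1 + ‖uu c (ee w)‖) ^ m) := by gcongr
          _ = |C| * (‖ee w‖ * (1 + ‖uu c (ee w)‖)) ^ m := by rw [mul_pow]; ring
          _ ≤ _ := by gcongr)
    refine ⟨h1, (h2.meromorphicAt.div ((MeromorphicAt.id 0).pow (N * m))).congr ?_⟩
    filter_upwards [h3, self_mem_nhdsWithin] with q h4 h5
    change φ q / q ^ (N * m) = _
    rw [h4, mul_div_cancel_left₀ _ (pow_ne_zero _ h5)]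
  let E : B →+* M0 :=
    { toFun := fun f => ⟨fun q => f.1.1 (j (Periodic.invQParam N q)), (hcusp f).2⟩
      map_one' := rfl
      map_mul' := fun _ _ => rfl
      map_zero' := rfl
      map_add' := fun _ _ => rfl }
  have hev : ∀ᶠ q in 𝓝[≠] (0 : ℂ), R < (Periodic.invQParam N q).im :=
    (Periodic.invQParam_tendsto hN').eventually (preimage_mem_comap (Ioi_mem_atTop R))
  have hcongr : ∀ f g : M0, (f : ℂ → ℂ) =ᶠ[𝓝[≠] 0] g → Λ f = Λ g := by
    intro f g hfg
    rw [← sub_eq_zero, ← map_sub, hΛ0]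
    filter_upwards [hfg] with q hq
    exact sub_eq_zero.2 hq
  refine ⟨Λ.comp E, (injective_iff_map_eq_zero _).2 fun f hf => ?_, fun Q => ?_,
    fun x y hxy => hΛr _ (Complex.exp_ne_zero _) _ _ ?_⟩
  · have h1 := (Periodic.qParam_tendsto hN').eventually ((hΛ0 _).1 hf)
    obtain ⟨R', hR'⟩ := eventually_atTop.1 (eventually_comap.1 h1)
    let w₀ : ℂ := ((max R R' + 1 : ℝ) : ℂ) * Complex.I
    have h2 : max R R' < w₀.im := by simp [w₀]
    have h3 : R < w₀.im := (le_max_left _ _).trans_lt h2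
    have h4 : map j (𝓝 w₀) = 𝓝 (j w₀) := by
      refine map_nhds_of_comp h.isLocalHomeomorph hj1.continuousAt ?_
      rw [hj3 w₀ h3, ← map_uu_ee]
      exact Filter.map_congr ((hopen w₀ h3).mono hj3)
    refine Subtype.ext (Subtype.ext (funext (h.hol_zero f.1.2.1 (x₀ := j w₀) ?_)))
    rw [← h4, eventually_map]
    filter_upwards [Complex.continuous_im.continuousAt.eventually (lt_mem_nhds h2)] with w hw
    rw [← (hcusp f).1 w ((le_max_left _ _).trans_lt hw)]
    exact hR' _ ((le_max_right _ _).trans hw.le) w rfl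
  · have key : (Λ.comp E).comp (algebraMap ℂ[X] B) = sub c N := by
      refine Polynomial.ringHom_ext (fun a => ?_) ?_
      · rw [sub, coe_eval₂RingHom, eval₂_C]
        exact hΛc _ a fun q => eval_C
      · rw [sub, coe_eval₂RingHom, eval₂_X]
        let ι : M0 := ⟨fun q => q, MeromorphicAt.id 0⟩
        have h1 : Λ (ι ^ N) = HahnSeries.single (N : ℤ) 1 := by
          rw [map_pow, hΛX ι fun _ => rfl, HahnSeries.single_pow, one_pow, nsmul_eq_mul, mul_one]
        have h2 : ∀ᶠ q in 𝓝[≠] (0 : ℂ), (E (algebraMap ℂ[X] B X) : ℂ → ℂ) q = uu c (q ^ N) := by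
          filter_upwards [hev, self_mem_nhdsWithin] with q h2 h3
          change eval (p (j (Periodic.invQParam N q))) X = _
          rw [eval_X, hj3 _ h2, ← qParam_pow hN, Periodic.qParam_right_inv hN'.ne' h3]
        change Λ (E (algebraMap ℂ[X] B X)) = _
        generalize E (algebraMap ℂ[X] B X) = u at h2
        induction c using OnePoint.rec with
        | infty =>
          have h3 : Λ (u * ι ^ N) = Λ 1 := by
            refine hcongr _ _ ?_
            filter_upwards [h2, self_mem_nhdsWithin] with q h3 h4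
            change u.1 q * q ^ N = 1
            rw [h3, uu_infty, inv_mul_cancel₀ (pow_ne_zero _ h4)]
          rw [map_mul, map_one, h1] at h3
          rw [tt_infty]
          refine (eq_inv_of_mul_eq_one_left h3).trans (eq_inv_of_mul_eq_one_left ?_).symm
          rw [HahnSeries.single_mul_single, neg_add_cancel, mul_one]
          rfl
        | coe a =>
          let κ : M0 := ⟨fun _ => a, MeromorphicAt.const a 0⟩
          rw [tt_coe, ← h1, ← hΛc κ a fun _ => rfl, ← map_add]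
          exact hcongr _ _ h2
    exact DFunLike.congr_fun key Q
  · filter_upwards [hev, self_mem_nhdsWithin] with q h1 h2
    change y.1.1 (j (Periodic.invQParam N q)) = x.1.1 (j (Periodic.invQParam N (zeta N * q)))
    have h3 := (hcusp x).1 (Periodic.invQParam N q + 1) (by simpa using h1)
    rw [qParam_add_one, Periodic.qParam_right_inv hN'.ne' h2] at h3
    rw [h3, hxy, h.rho_apply, hj2]

theorem Cov.end_one (h : Cov S Γ p) {z : ℂ} (hz : z ∉ S) : End p (z : OnePoint ℂ) (1 : Γ) := by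
  obtain ⟨x, rfl⟩ := h.surj z hz
  obtain ⟨σ, -, h1, -⟩ := h.exists_local x
  obtain ⟨ε, hε, h2⟩ := Metric.eventually_nhds_iff_ball.1 h1
  obtain ⟨Y, -, hY⟩ := exists_height hε
  have h3 : ∀ w, uu (p x) (ee (clamp Y w)) ∈ ball (p x) ε := fun w => by
    rw [uu_coe, mem_ball_iff_norm, add_sub_cancel_left]
    exact (norm_ee_clamp Y w).trans_lt hY
  refine ⟨Y, fun w => σ (uu (p x) (ee (clamp Y w))), continuous_iff_continuousAt.2 fun w =>
    ContinuousAt.comp (g := σ) (h2 _ (h3 w)).1 (continuous_uu _ Y).continuousAt, fun w => ?_,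
    fun w hw => ?_⟩
  · simp only [clamp_add_one, ee_add, ee_one, mul_one, inv_one, one_smul]
  · rw [(h2 _ (h3 w)).2, clamp_of_lt hw]

theorem End.map {Z' G : Type} [TopologicalSpace Z'] [Group G] [MulAction G Z'] {p' : Z' → ℂ}
    {g : Γ →* G} {T : Z → Z'} (hT : Continuous T) (h1 : ∀ x, p' (T x) = p x)
    (h2 : ∀ γ x, T (γ • x) = g γ • T x) {c : OnePoint ℂ} {γ : Γ} (he : End p c γ) :
    End p' c (g γ) := by
  obtain ⟨R, j, hj1, hj2, hj3⟩ := he
  exact ⟨R, fun w => T (j w), hT.comp hj1, fun w => by simp only [hj2, h2, map_inv],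
    fun w hw => by rw [h1, hj3 w hw]⟩

theorem abs : ABS := by
  intro S hS
  obtain ⟨r, a, ha1, ha2, Z, _, _, p, h, _, he1, he2, hlift, hquot⟩ := top S hS
  obtain ⟨x₁⟩ := h.nonempty hS
  refine ⟨r, a, ha1, ha2, AA p, inferInstance, h.isDomain hS, inferInstance, h.rho, ?_,
    ⟨fun f => ?_⟩, fun f hf => ?_, fun z hz => (h.end_one hz).locA h one_pos,
    fun i N hN => (he1 i).locA h hN, fun N hN => he2.locA h hN, fun G _ _ g => ?_,
    fun P hP h0 hsep hspl => ?_⟩
  · refine (injective_iff_map_eq_zero _).2 fun Q hQ => ?_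
    refine Polynomial.eq_zero_of_infinite_isRoot Q (hS.infinite_compl.mono fun z hz => ?_)
    obtain ⟨x, rfl⟩ := h.surj z hz
    exact congrArg (fun f : AA p => f.1 x) hQ
  · exact (isIntegral_algHom_iff (AA p).val Subtype.val_injective).1 f.2.2
  · obtain ⟨Q, hQ⟩ := h.desc hS f.2.1 (pg_of_integral p f.2.2) fun g x => by
      conv_rhs => rw [← hf g⁻¹, h.rho_apply, inv_inv]
    exact ⟨Q, Subtype.ext (funext fun x => (hQ x).symm)⟩
  · obtain ⟨Z', _, _, p', h', T, hT1, hT2, hT3⟩ := hquot G g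
    obtain ⟨f, hf1, hf2, hf3, hf4⟩ := cpt S hS G Z' p' h' (fun z hz => by
      obtain ⟨i, rfl⟩ : z ∈ range a := ha2 ▸ hz
      exact ⟨_, (he1 i).map hT1 hT2 hT3⟩) ⟨_, he2.map hT1 hT2 hT3⟩ (T x₁)
    obtain ⟨P, hP1, hP2⟩ := h'.integral hS hf1 hf2
    refine ⟨⟨fun x => f (T x), fun x => HolAt.comp hT1 hT2 (hf1 _), P, hP1, funext fun x => ?_⟩,
      fun γ => ⟨fun hγ => ?_, fun hγ => Subtype.ext (funext fun x => ?_)⟩⟩
    · refine (aeval_apply' p (fun x => f (T x)) P x).trans ?_
      rw [← hT2]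
      exact hP2 _
    · have h1 : f (T (γ⁻¹ • x₁)) = f (T x₁) := congrArg (fun f : AA p => f.1 x₁) hγ
      rw [hT3] at h1
      by_contra h2
      exact hf3 (h1 ▸ hf4 _ (by rwa [map_inv, Ne, inv_eq_one]))
    · change f (T (γ⁻¹ • x)) = f (T x)
      rw [hT3, map_inv, hγ, inv_one, one_smul]
  · have hl : ∀ z ∉ S, LocRoots P z := fun z hz => loc P hP hsep z (hspl z hz)
    obtain ⟨Y, _, q, ev, h1, h2, h3, -, h4⟩ := et P hP
    obtain ⟨T, hT1, hT2⟩ := hlift Y q (h1.mono hl) fun z hz => by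
      obtain ⟨φ, h5, h6, -⟩ := hl z hz
      obtain ⟨y, hy, -⟩ := h4 z _ (h5 ⟨0, h0⟩) (h6 ⟨0, h0⟩)
      exact ⟨y, hy⟩
    have h5 : aeval (R := ℂ[X]) (show Fn p from fun x => ev (T x)) P = 0 := by
      funext x
      rw [aeval_apply', ← hT2]
      exact h3 _
    refine ⟨⟨fun x => ev (T x), fun x => HolAt.comp hT1 hT2 (h2 _ (hT2 x ▸ hl _ (h.mem x))),
      P, hP, h5⟩, Subtype.ext ?_⟩
    exact (aeval_algHom_apply (AA p).val _ P).symm.trans h5

/-- **Riemann existence theorem** -/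
theorem ret : RET := alg abs

end Vale.Agent.P179R
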