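import Vale.Agent.P179R.Defs

/-!
# Polynomial growth: roots of monic polynomials, and Riemann + Liouville
-/

open Set Filter Topology Polynomial Function

namespace Vale.Agent.P179R

/-- a polynomial has polynomial growth -/
theorem pg_eval (Q : ℂ[X]) :
    ∃ (C : ℝ) (m : ℕ), 0 ≤ C ∧ ∀ t : ℂ, ‖Q.eval t‖ ≤ C * (1 + ‖t‖) ^ m := by
  refine ⟨∑ i ∈ Finset.range (Q.natDegree + 1), ‖Q.coeff i‖, Q.natDegree,
    Finset.sum_nonneg fun _ _ => norm_nonneg _, fun t => ?_⟩
  rw [eval_eq_sum_range, Finset.sum_mul]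
  refine (norm_sum_le _ _).trans (Finset.sum_le_sum fun i hi => ?_)
  rw [norm_mul, norm_pow]
  refine mul_le_mul_of_nonneg_left ?_ (norm_nonneg _)
  have h0 := norm_nonneg t
  calc ‖t‖ ^ i ≤ (1 + ‖t‖) ^ i := pow_le_pow_left₀ h0 (by linarith) _
    _ ≤ (1 + ‖t‖) ^ Q.natDegree :=
      pow_le_pow_right₀ (by linarith) (Nat.lt_succ_iff.mp (Finset.mem_range.mp hi))

theorem pg_coeffs (P : ℂ[X][X]) (n : ℕ) :
    ∃ (C : ℝ) (m : ℕ), 0 ≤ C ∧ ∀ t : ℂ, ∀ i < n, ‖(P.coeff i).eval t‖ ≤ C * (1 + ‖t‖) ^ m := by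
  induction n with
  | zero => exact ⟨0, 0, le_rfl, fun _ _ h => absurd h (Nat.not_lt_zero _)⟩
  | succ n ih =>
    obtain ⟨C, m, hC, h⟩ := ih
    obtain ⟨D, k, hD, h'⟩ := pg_eval (P.coeff n)
    refine ⟨C + D, m + k, add_nonneg hC hD, fun t i hi => ?_⟩
    have h1 : (1 : ℝ) ≤ 1 + ‖t‖ := by linarith [norm_nonneg t]
    have hp : (0 : ℝ) ≤ (1 + ‖t‖) ^ (m + k) := by positivity
    rcases Nat.lt_succ_iff_lt_or_eq.mp hi with hi | rfl
    · refine (h t i hi).trans ?_
      have := mul_le_mul_of_nonneg_left (pow_le_pow_right₀ h1 (Nat.le_add_right m k)) hC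
      nlinarith
    · refine (h' t).trans ?_
      have := mul_le_mul_of_nonneg_left (pow_le_pow_right₀ h1 (Nat.le_add_left k m)) hD
      nlinarith

theorem grow1 : GROW1 := by
  intro P hP
  obtain ⟨C, m, hC, h⟩ := pg_coeffs P P.natDegree
  refine ⟨C + 1, m, fun t y hy => ?_⟩
  have hm : (P.map (evalRingHom t)).Monic := hP.map _
  have hr : (P.map (evalRingHom t)).IsRoot y := by
    rw [IsRoot.def, map_evalRingHom_eval]; exact hy
  have hb := hr.norm_lt_cauchyBound hm.ne_zero
  have h1 : (1 : ℝ) ≤ (1 + ‖t‖) ^ m := one_le_pow₀ (by linarith [norm_nonneg t])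
  have h0 : 0 ≤ C * (1 + ‖t‖) ^ m := by positivity
  have hs : (Finset.range (P.map (evalRingHom t)).natDegree).sup
      (fun i => ‖(P.map (evalRingHom t)).coeff i‖₊) ≤ ⟨C * (1 + ‖t‖) ^ m, h0⟩ := by
    refine Finset.sup_le fun i hi => ?_
    rw [hP.natDegree_map] at hi
    rw [coeff_map]
    exact h t i (Finset.mem_range.mp hi)
  rw [cauchyBound, hm.leadingCoeff, nnnorm_one, div_one] at hb
  have hb' : ‖y‖ ≤ C * (1 + ‖t‖) ^ m + 1 := by
    have := (hb.trans_le (add_le_add_left hs 1)).le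
    exact_mod_cast this
  nlinarith

/-- an entire function of polynomial growth is a polynomial -/
theorem poly_of_entire (m : ℕ) : ∀ (g : ℂ → ℂ) (C : ℝ), Differentiable ℂ g →
    (∀ z, ‖g z‖ ≤ C * (1 + ‖z‖) ^ m) → ∃ Q : ℂ[X], ∀ z, g z = Q.eval z := by
  induction m with
  | zero =>
    intro g C hg h
    obtain ⟨c, hc⟩ := hg.exists_const_forall_eq_of_bounded
      (isBounded_iff_forall_norm_le.2 ⟨C, by rintro _ ⟨z, rfl⟩; simpa using h z⟩)
    exact ⟨Polynomial.C c, fun z => by simp [hc z]⟩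
  | succ m ih =>
    intro g C hg h
    have hd : Differentiable ℂ (dslope g 0) :=
      differentiableOn_univ.1 ((Complex.differentiableOn_dslope univ_mem).2 hg.differentiableOn)
    obtain ⟨D, hD⟩ := (isCompact_closedBall (0 : ℂ) 1).exists_bound_of_continuousOn
      hd.continuous.continuousOn
    have hC : 0 ≤ C := by simpa using (norm_nonneg _).trans (h 0)
    have hD0 : 0 ≤ D := (norm_nonneg _).trans (hD 0 (by simp))
    obtain ⟨Q, hQ⟩ := ih (dslope g 0) (4 * C + D) hd fun z => by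
      have h0 := norm_nonneg z
      have h1 : (1 : ℝ) ≤ (1 + ‖z‖) ^ m := one_le_pow₀ (by linarith)
      rcases le_total ‖z‖ 1 with hz | hz
      · have := hD z (by simpa using hz)
        nlinarith
      · have e : z * dslope g 0 z = g z - g 0 := by simpa using sub_smul_dslope g 0 z
        have e1 : ‖z‖ * ‖dslope g 0 z‖ ≤ C * (1 + ‖z‖) ^ (m + 1) + C := by
          rw [← norm_mul, e]
          exact (norm_sub_le _ _).trans (add_le_add (h z) (by simpa using h 0))
        have e2 : C * (1 + ‖z‖) ^ (m + 1) + C ≤ ‖z‖ * (4 * C * (1 + ‖z‖) ^ m) := by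
          have h2 : C ≤ C * (1 + ‖z‖) ^ m := by nlinarith
          have h3 : 0 ≤ C * (1 + ‖z‖) ^ m := by positivity
          rw [pow_succ]
          nlinarith
        have e3 := le_of_mul_le_mul_left (e1.trans e2) (by linarith)
        nlinarith
    refine ⟨Polynomial.C (g 0) + X * Q, fun z => ?_⟩
    have e : z * dslope g 0 z = g z - g 0 := by simpa using sub_smul_dslope g 0 z
    simp only [eval_add, eval_C, eval_mul, eval_X, ← hQ z, e]
    ring

/-- removing finitely many singularities -/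
theorem remove_sing (B : ℂ → ℝ) (hB : Continuous B) (S : Set ℂ) (hS : S.Finite) :
    ∀ f : ℂ → ℂ, (∀ z ∉ S, AnalyticAt ℂ f z) → (∀ z ∉ S, ‖f z‖ ≤ B z) →
      ∃ g : ℂ → ℂ, Differentiable ℂ g ∧ (∀ z, ‖g z‖ ≤ B z) ∧ ∀ z ∉ S, f z = g z := by
  induction S, hS using Set.Finite.induction_on with
  | empty =>
    intro f hf h
    exact ⟨f, fun z => (hf z (notMem_empty z)).differentiableAt, fun z => h z (notMem_empty z),
      fun _ _ => rfl⟩
  | @insert a S ha hS ih =>
    intro f hf h
    have hU : Sᶜ ∩ Metric.closedBall a 1 ∈ 𝓝 a :=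
      inter_mem (hS.isClosed.isOpen_compl.mem_nhds ha) (Metric.closedBall_mem_nhds a one_pos)
    have hn : ∀ z ∈ (Sᶜ ∩ Metric.closedBall a 1) \ {a}, z ∉ insert a S := fun z hz hz' =>
      hz'.elim hz.2 hz.1.1
    obtain ⟨D, hD⟩ := (isCompact_closedBall a 1).exists_bound_of_continuousOn hB.continuousOn
    have hd := Complex.differentiableOn_update_limUnder_of_bddAbove hU
      (fun z hz => (hf z (hn z hz)).differentiableAt.differentiableWithinAt)
      ⟨D, by
        rintro _ ⟨z, hz, rfl⟩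
        exact (h z (hn z hz)).trans ((le_abs_self _).trans (hD z hz.1.2))⟩
    set f' := update f a (limUnder (𝓝[≠] a) f) with hf'
    have ha' : AnalyticAt ℂ f' a := hd.analyticAt hU
    have hne : ∀ z, z ≠ a → f' z = f z := fun z hz => update_of_ne hz _ _
    obtain ⟨g, hg, hgB, hfg⟩ := ih f' (fun z hz => by
        rcases eq_or_ne z a with rfl | hza
        · exact ha'
        · refine (hf z fun h' => h'.elim hza hz).congr ?_
          filter_upwards [isOpen_ne.mem_nhds hza] with w hw using (hne w hw).symm)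
      fun z hz => by
        rcases eq_or_ne z a with rfl | hza
        · refine le_of_tendsto_of_tendsto (b := 𝓝[≠] z)
            (ha'.continuousAt.norm.tendsto.mono_left nhdsWithin_le_nhds)
            (hB.continuousAt.tendsto.mono_left nhdsWithin_le_nhds) ?_
          filter_upwards [self_mem_nhdsWithin, nhdsWithin_le_nhds hU] with w hw hw'
          rw [hne w hw]
          exact h w (hn w ⟨hw', hw⟩)
        · rw [hne z hza]
          exact h z fun h' => h'.elim hza hz
    refine ⟨g, hg, hgB, fun z hz => ?_⟩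
    rw [← hfg z fun h' => hz (Or.inr h'), hne z fun h' => hz (Or.inl h')]

theorem grow2 : GROW2 := by
  intro S hS f C m hf h
  obtain ⟨g, hg, hgB, hfg⟩ :=
    remove_sing (fun z => C * (1 + ‖z‖) ^ m) (by fun_prop) S hS f hf h
  obtain ⟨Q, hQ⟩ := poly_of_entire m g C hg hgB
  exact ⟨Q, fun z hz => (hfg z hz).trans (hQ z)⟩

end Vale.Agent.P179R
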