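import Vale.Agent.P179R.Cov
import Vale.Agent.P179R.Grow

/-!
# The algebra of holomorphic functions on a cover
-/

open Set Filter Topology Polynomial Function Metric

namespace Vale.Agent.P179R

/-- functions on `Z`, as an algebra over `ℂ[t]` via `p` -/
def Fn {Z : Type} (_p : Z → ℂ) : Type := Z → ℂ

variable {Z : Type} (p : Z → ℂ)

instance : CommRing (Fn p) := inferInstanceAs (CommRing (Z → ℂ))

noncomputable instance : Algebra ℂ[X] (Fn p) :=
  (show ℂ[X] →+* Fn p from RingHom.pi fun x => evalRingHom (p x)).toAlgebra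

/-- evaluation at a point -/
def evx (x : Z) : Fn p →+* ℂ := Pi.evalRingHom (fun _ : Z => ℂ) x

theorem evx_alg (x : Z) : (evx p x).comp (algebraMap ℂ[X] (Fn p)) = evalRingHom (p x) := rfl

theorem aeval_apply' (f : Fn p) (P : ℂ[X][X]) (x : Z) :
    (aeval f P : Fn p) x = P.evalEval (p x) (f x) := by
  change evx p x (aeval f P) = _
  rw [aeval_def, hom_eval₂, evx_alg, eval₂_evalRingHom]
  rfl

/-- functions of polynomial growth -/
def PGS : Subalgebra ℂ[X] (Fn p) where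
  carrier := {f | PG p f}
  mul_mem' := by
    rintro f g ⟨C, m, hf⟩ ⟨D, n, hg⟩
    refine ⟨|C| * |D|, m + n, fun x => ?_⟩
    have h1 : ‖f x‖ ≤ |C| * (1 + ‖p x‖) ^ m := (hf x).trans (by gcongr; exact le_abs_self C)
    have h2 : ‖g x‖ ≤ |D| * (1 + ‖p x‖) ^ n := (hg x).trans (by gcongr; exact le_abs_self D)
    calc ‖f x * g x‖ = ‖f x‖ * ‖g x‖ := norm_mul _ _
      _ ≤ |C| * (1 + ‖p x‖) ^ m * (|D| * (1 + ‖p x‖) ^ n) := by gcongr
      _ = _ := by ring
  add_mem' := by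
    rintro f g ⟨C, m, hf⟩ ⟨D, n, hg⟩
    refine ⟨|C| + |D|, m + n, fun x => ?_⟩
    have h0 : 1 ≤ 1 + ‖p x‖ := by linarith [norm_nonneg (p x)]
    have h1 : ‖f x‖ ≤ |C| * (1 + ‖p x‖) ^ (m + n) :=
      (hf x).trans (by gcongr; exacts [le_abs_self C, Nat.le_add_right m n])
    have h2 : ‖g x‖ ≤ |D| * (1 + ‖p x‖) ^ (m + n) :=
      (hg x).trans (by gcongr; exacts [le_abs_self D, Nat.le_add_left n m])
    calc ‖f x + g x‖ ≤ ‖f x‖ + ‖g x‖ := norm_add_le _ _
      _ ≤ _ := by linarith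
  algebraMap_mem' Q := by
    obtain ⟨C, m, -, h⟩ := pg_eval Q
    exact ⟨C, m, fun x => h (p x)⟩

theorem pg_of_integral {f : Fn p} (hf : IsIntegral ℂ[X] f) : PG p f := by
  obtain ⟨P, hP, h⟩ := hf
  obtain ⟨C, m, hC⟩ := grow1 P hP
  refine ⟨C, m, fun x => hC _ _ ?_⟩
  rw [← aeval_apply', aeval_def, h]
  rfl

variable [TopologicalSpace Z]

/-- holomorphic functions -/
def HolS : Subalgebra ℂ[X] (Fn p) where
  carrier := {f | ∀ x, HolAt p f x}
  mul_mem' := by
    intro f g hf hg x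
    obtain ⟨φ, h1, h2⟩ := hf x
    obtain ⟨ψ, h3, h4⟩ := hg x
    refine ⟨φ * ψ, h1.mul h3, ?_⟩
    filter_upwards [h2, h4] with y h5 h6
    change f y * g y = φ (p y) * ψ (p y)
    rw [h5, h6]
  add_mem' := by
    intro f g hf hg x
    obtain ⟨φ, h1, h2⟩ := hf x
    obtain ⟨ψ, h3, h4⟩ := hg x
    refine ⟨φ + ψ, h1.add h3, ?_⟩
    filter_upwards [h2, h4] with y h5 h6
    change f y + g y = φ (p y) + ψ (p y)
    rw [h5, h6]
  algebraMap_mem' Q x :=
    ⟨fun z => Q.eval z, Q.differentiable.analyticAt _, Eventually.of_forall fun _ => rfl⟩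

/-- holomorphic functions integral over `ℂ[t]` -/
noncomputable def AA : Subalgebra ℂ[X] (Fn p) := HolS p ⊓ integralClosure ℂ[X] (Fn p)

variable {p}

theorem HolAt.comp {Z' : Type} [TopologicalSpace Z'] {p' f : Z' → ℂ} {T : Z → Z'}
    (hT : Continuous T) (hp : ∀ x, p' (T x) = p x) {x : Z} (h : HolAt p' f (T x)) :
    HolAt p (fun y => f (T y)) x := by
  obtain ⟨φ, h1, h2⟩ := h
  refine ⟨φ, hp x ▸ h1, ?_⟩
  filter_upwards [hT.continuousAt.eventually h2] with y hy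
  rw [hy, hp]

variable {S : Set ℂ} {Γ : Type} [Group Γ] [MulAction Γ Z]

theorem Cov.hol_zero [PreconnectedSpace Z] (h : Cov S Γ p) {f : Z → ℂ} (hf : ∀ x, HolAt p f x)
    {x₀ : Z} (h0 : ∀ᶠ y in 𝓝 x₀, f y = 0) (x : Z) : f x = 0 := by
  have h1 : IsClopen {x | ∀ᶠ y in 𝓝 x, f y = 0} := by
    refine ⟨isClosed_of_closure_subset fun x hx => ?_, isOpen_setOfPred_eventually_nhds⟩
    obtain ⟨φ, h1, h2⟩ := hf x
    obtain ⟨ε, hε, h3⟩ := Metric.eventually_nhds_iff_ball.1 h1.eventually_analyticAt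
    have h4 : ∀ᶠ y in 𝓝 x, p y ∈ ball (p x) ε :=
      h.continuous.continuousAt.eventually (ball_mem_nhds _ hε)
    obtain ⟨y, ⟨h5, h6⟩, h7⟩ := mem_closure_iff_nhds.1 hx _ (h4.and h2.eventually_nhds)
    have h8 : φ =ᶠ[𝓝 (p y)] 0 := by
      rw [← h.map_nhds y, EventuallyEq, eventually_map]
      filter_upwards [h6, h7] with w h9 h10
      rw [← h9, h10]
      rfl
    have h9 := AnalyticOnNhd.eqOn_zero_of_preconnected_of_eventuallyEq_zero h3
      (convex_ball _ _).isPreconnected h5 h8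
    filter_upwards [h2, h4] with w h10 h11
    rw [h10, h9 h11]
    rfl
  have h2 := h1.eq_univ ⟨x₀, h0⟩
  exact (eq_univ_iff_forall.1 h2 x).self_of_nhds

theorem Cov.nonempty (h : Cov S Γ p) (hS : S.Finite) : Nonempty Z := by
  obtain ⟨z, hz⟩ := hS.infinite_compl.nonempty
  obtain ⟨x, -⟩ := h.surj z hz
  exact ⟨x⟩

theorem Cov.isDomain [PreconnectedSpace Z] (h : Cov S Γ p) (hS : S.Finite) : IsDomain (AA p) := by
  obtain ⟨x⟩ := h.nonempty hS
  have : Nontrivial (AA p) := ⟨0, 1, fun h => zero_ne_one (congrArg (fun f : AA p => f.1 x) h)⟩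
  have : NoZeroDivisors (AA p) := by
    refine ⟨fun {f g} hfg => ?_⟩
    obtain ⟨φ, h1, h2⟩ := f.2.1 x
    obtain ⟨ψ, h3, h4⟩ := g.2.1 x
    have h5 : ∀ᶠ z in 𝓝 (p x), φ z * ψ z = 0 := by
      rw [← h.map_nhds x, eventually_map]
      filter_upwards [h2, h4] with y h5 h6
      rw [← h5, ← h6]
      exact congrArg (fun f : AA p => f.1 y) hfg
    have key : ∀ (f : AA p) (φ : ℂ → ℂ), (∀ᶠ y in 𝓝 x, f.1 y = φ (p y)) →
        (∀ᶠ z in 𝓝 (p x), φ z = 0) → f = 0 := by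
      intro f φ h1 h2
      refine Subtype.ext (funext (h.hol_zero f.2.1 (x₀ := x) ?_))
      filter_upwards [h1, h.continuous.continuousAt.eventually h2] with y h3 h4
      rw [h3, h4]
    rcases h1.eventually_eq_zero_or_eventually_ne_zero with h6 | h6
    · exact Or.inl (key f φ h2 h6)
    · refine Or.inr (key g ψ h4 (h3.frequently_zero_iff_eventually_zero.1 (Eventually.frequently ?_)))
      filter_upwards [h6, mem_nhdsWithin_of_mem_nhds h5] with z h7 h8
      exact (mul_eq_zero.1 h8).resolve_left h7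
  exact NoZeroDivisors.to_isDomain _

theorem Cov.desc (h : Cov S Γ p) (hS : S.Finite) {f : Z → ℂ} (hf : ∀ x, HolAt p f x)
    (hg : PG p f) (hinv : ∀ (g : Γ) x, f (g • x) = f x) : ∃ Q : ℂ[X], ∀ x, f x = Q.eval (p x) := by
  classical
  let φ : ℂ → ℂ := fun z => if hz : z ∉ S then f (h.surj z hz).choose else 0
  have hφ : ∀ x, φ (p x) = f x := by
    intro x
    simp only [φ, dif_pos (h.mem x)]
    obtain ⟨g, hg⟩ := h.trans _ x (h.surj (p x) (h.mem x)).choose_spec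
    conv_rhs => rw [← hg, hinv]
  obtain ⟨C, m, hC⟩ := hg
  obtain ⟨Q, hQ⟩ := grow2 S hS φ C m (fun z hz => by
    obtain ⟨x, rfl⟩ := h.surj z hz
    obtain ⟨ψ, h1, h2⟩ := hf x
    refine h1.congr ?_
    rw [← h.map_nhds x, EventuallyEq, eventually_map]
    filter_upwards [h2] with y hy
    rw [hφ, hy]) (fun z hz => by
    obtain ⟨x, rfl⟩ := h.surj z hz
    rw [hφ]
    exact hC x)
  exact ⟨Q, fun x => by rw [← hφ, hQ _ (h.mem x)]⟩

theorem Cov.integral [Finite Γ] (h : Cov S Γ p) (hS : S.Finite) {f : Z → ℂ}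
    (hf : ∀ x, HolAt p f x) (hg : PG p f) :
    ∃ P : ℂ[X][X], P.Monic ∧ ∀ x, P.evalEval (p x) (f x) = 0 := by
  classical
  have := Fintype.ofFinite Γ
  let T := HolS p ⊓ PGS p
  let fg : Γ → T := fun g => ⟨fun x => f (g • x),
    fun x => HolAt.comp (h.cont g) (h.inv g) (hf _), by
      obtain ⟨C, m, hC⟩ := hg
      exact ⟨C, m, fun x => by simpa only [h.inv] using hC (g • x)⟩⟩
  let Q : T[X] := ∏ g, (X - C (fg g))
  let e : Z → T →+* ℂ := fun x => (evx p x).comp T.val.toRingHom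
  have hQ : ∀ x, Q.map (e x) = ∏ g : Γ, (X - C (f (g • x))) := by
    intro x
    simp only [Q, Polynomial.map_prod, Polynomial.map_sub, map_X, map_C]
    rfl
  have hl : Q ∈ lifts (algebraMap ℂ[X] T) := by
    rw [lifts_iff_coeff_lifts]
    intro n
    obtain ⟨R, hR⟩ := h.desc hS (Q.coeff n).2.1 (Q.coeff n).2.2 fun a x => by
      change e (a • x) (Q.coeff n) = e x (Q.coeff n)
      rw [← coeff_map, ← coeff_map, hQ, hQ]
      congr 1
      exact Fintype.prod_equiv (Equiv.mulRight a) _ _ fun g => by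
        rw [Equiv.coe_mulRight, mul_smul]
    exact ⟨R, Subtype.ext (funext fun x => (hR x).symm)⟩
  obtain ⟨P, h1, -, h2⟩ := lifts_and_natDegree_eq_and_monic hl
    (monic_prod_of_monic _ _ fun g _ => monic_X_sub_C _)
  refine ⟨P, h2, fun x => ?_⟩
  have h3 : P.map (evalRingHom (p x)) = Q.map (e x) := by
    rw [← h1, Polynomial.map_map]
    rfl
  rw [← map_evalRingHom_eval, h3, hQ, eval_prod]
  exact Finset.prod_eq_zero (Finset.mem_univ 1) (by simp)

/-- translation of functions -/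
def Cov.tr (h : Cov S Γ p) (g : Γ) : Fn p →ₐ[ℂ[X]] Fn p where
  toFun f x := f (g⁻¹ • x)
  map_one' := rfl
  map_mul' _ _ := rfl
  map_zero' := rfl
  map_add' _ _ := rfl
  commutes' Q := funext fun x => congrArg (fun z => Q.eval z) (h.inv g⁻¹ x)

/-- the action on `AA` -/
noncomputable def Cov.rho (h : Cov S Γ p) : Γ →* (AA p →ₐ[ℂ[X]] AA p) where
  toFun g := ((h.tr g).comp (AA p).val).codRestrict (AA p) fun f =>
    ⟨fun _ => HolAt.comp (h.cont g⁻¹) (h.inv g⁻¹) (f.2.1 _), IsIntegral.map (h.tr g) f.2.2⟩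
  map_one' := by
    ext f : 2
    exact funext fun x => congrArg f.1 (by rw [inv_one, one_smul])
  map_mul' a b := by
    ext f : 2
    exact funext fun x => congrArg f.1 (by rw [mul_inv_rev, mul_smul])

theorem Cov.rho_apply (h : Cov S Γ p) (g : Γ) (f : AA p) (x : Z) :
    (h.rho g f).1 x = f.1 (g⁻¹ • x) := rfl

end Vale.Agent.P179R
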