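import Vale.Agent.P179R.Defs

/-!
# General lemmas on covers
-/

open Set Filter Topology Polynomial Function
open scoped Real

namespace Vale.Agent.P179R

section lifts

variable {A Y : Type} [TopologicalSpace A] [TopologicalSpace Y] {q : Y → ℂ} {s : Set ℂ}

theorem eqOn_lift (hq : IsCoveringMapOn q s) {t : Set A} (ht : IsPreconnected t) {g₁ g₂ : A → Y}
    (h₁ : ContinuousOn g₁ t) (h₂ : ContinuousOn g₂ t) (he : ∀ a ∈ t, q (g₁ a) = q (g₂ a))
    (hs : ∀ a ∈ t, q (g₁ a) ∈ s) {a : A} (ha : a ∈ t) (h : g₁ a = g₂ a) : EqOn g₁ g₂ t := by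
  have : PreconnectedSpace t := isPreconnected_iff_preconnectedSpace.1 ht
  let G₁ : t → q ⁻¹' s := fun x => ⟨g₁ x, hs x x.2⟩
  let G₂ : t → q ⁻¹' s := fun x => ⟨g₂ x, by
    change q (g₂ x) ∈ s
    rw [← he x x.2]
    exact hs x x.2⟩
  have key : G₁ = G₂ := hq.isCoveringMap_restrictPreimage.eq_of_comp_eq
    (h₁.domRestrict.subtype_mk _) (h₂.domRestrict.subtype_mk _)
    (funext fun x => Subtype.ext (he x x.2)) ⟨a, ha⟩ (Subtype.ext h)
  intro x hx
  exact congrArg Subtype.val (congr_fun key ⟨x, hx⟩)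

theorem eq_lift [PreconnectedSpace A] (hq : IsCoveringMapOn q s) {g₁ g₂ : A → Y}
    (h₁ : Continuous g₁) (h₂ : Continuous g₂) (he : ∀ a, q (g₁ a) = q (g₂ a))
    (hs : ∀ a, q (g₁ a) ∈ s) {a : A} (h : g₁ a = g₂ a) : g₁ = g₂ :=
  funext fun x => eqOn_lift hq isPreconnected_univ h₁.continuousOn h₂.continuousOn
    (fun a _ => he a) (fun a _ => hs a) (mem_univ a) h (mem_univ x)

theorem exists_lift [SimplyConnectedSpace A] [LocallyPathConnectedSpace A]
    (hq : IsCoveringMapOn q s) {u : A → ℂ} (hu : Continuous u) (hs : ∀ a, u a ∈ s) {a : A} {y : Y}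
    (h : q y = u a) : ∃ j : A → Y, Continuous j ∧ (∀ w, q (j w) = u w) ∧ j a = y := by
  obtain ⟨J, ⟨h1, h2⟩, -⟩ := hq.existsUnique_continuousMap_lifts ⟨u, hu⟩ (a₀ := a) h hs
  exact ⟨J, J.continuous, fun w => congr_fun h2 w, h1⟩

theorem exists_sec (hq : IsCoveringMapOn q s) {U : Set ℂ} (hU : IsOpen U)
    [SimplyConnectedSpace U] (hUs : U ⊆ s) {y : Y} (hy : q y ∈ U) :
    ∃ σ : ℂ → Y, ContinuousOn σ U ∧ (∀ z ∈ U, q (σ z) = z) ∧ σ (q y) = y := by
  classical
  have : LocallyPathConnectedSpace U := hU.locallyPathConnectedSpace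
  obtain ⟨j, h1, h2, h3⟩ := exists_lift (A := U) hq continuous_subtype_val (fun a => hUs a.2)
    (a := ⟨q y, hy⟩) (y := y) rfl
  refine ⟨fun z => if h : z ∈ U then j ⟨z, h⟩ else y, ?_, fun z hz => ?_, ?_⟩
  · rw [continuousOn_iff_continuous_domRestrict]
    convert h1 using 1
    funext z
    simp [z.2]
  · simp only [hz, dif_pos, h2]
  · simp only [hy, dif_pos, h3]

end lifts

theorem t2_of_sep {A B : Type} [TopologicalSpace A] [TopologicalSpace B] [T2Space B] {f : A → B}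
    (h : IsSeparatedMap f) (hf : Continuous f) : T2Space A := by
  refine ⟨fun x y hxy => ?_⟩
  by_cases he : f x = f y
  · exact h x y he hxy
  · exact separated_by_continuous hf he

namespace Cov

variable {S : Set ℂ} {Γ X : Type} [Group Γ] [TopologicalSpace X] [MulAction Γ X] {p : X → ℂ}

theorem isLocalHomeomorph (h : Cov S Γ p) : IsLocalHomeomorph p := by
  rw [isLocalHomeomorph_iff_isLocalHomeomorphOn_univ]
  exact h.cov.isLocalHomeomorphOn.mono fun x _ => h.mem x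

theorem continuous (h : Cov S Γ p) : Continuous p := h.isLocalHomeomorph.continuous

theorem map_nhds (h : Cov S Γ p) (x : X) : map p (𝓝 x) = 𝓝 (p x) :=
  h.isLocalHomeomorph.map_nhds_eq x

/-- two continuous maps over `ℂ` which agree at a point agree nearby -/
theorem eventuallyEq (h : Cov S Γ p) {A : Type} [TopologicalSpace A] {g₁ g₂ : A → X} {a : A}
    (h₁ : ContinuousAt g₁ a) (h₂ : ContinuousAt g₂ a) (he : ∀ᶠ w in 𝓝 a, p (g₁ w) = p (g₂ w))
    (ha : g₁ a = g₂ a) : g₁ =ᶠ[𝓝 a] g₂ := by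
  obtain ⟨U, hU, hx, hinj⟩ := h.isLocalHomeomorph.isLocallyInjective (g₁ a)
  filter_upwards [h₁.eventually (hU.mem_nhds hx), h₂.eventually (hU.mem_nhds (ha ▸ hx)), he]
    with w h1 h2 h3 using hinj h1 h2 h3

/-- local sections -/
theorem exists_local (h : Cov S Γ p) (x : X) : ∃ σ : ℂ → X, σ (p x) = x ∧
    (∀ᶠ z in 𝓝 (p x), ContinuousAt σ z ∧ p (σ z) = z) ∧ ∀ᶠ y in 𝓝 x, σ (p y) = y := by
  obtain ⟨e, hx, he⟩ := h.isLocalHomeomorph x
  subst he
  refine ⟨e.symm, e.left_inv hx, ?_, e.eventually_left_inverse hx⟩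
  filter_upwards [e.open_target.mem_nhds (e.map_source hx)] with z hz
  exact ⟨e.continuousAt_symm hz, e.right_inv hz⟩

theorem t2 (h : Cov S Γ p) : T2Space X := by
  have h1 : IsCoveringMap (Sᶜ.restrictPreimage p) := h.cov.isCoveringMap_restrictPreimage
  have h2 : T2Space (p ⁻¹' Sᶜ) := t2_of_sep h1.isSeparatedMap h1.continuous
  have h3 : p ⁻¹' Sᶜ = univ := eq_univ_of_forall h.mem
  rw [h3] at h2
  exact (Homeomorph.Set.univ X).t2Space

end Cov

end Vale.Agent.P179R
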