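import Vale.Agent.P179R.Top

/-!
# The ends of a finite cover are punctured discs
-/

open Set Filter Topology Polynomial Function Metric
open scoped Real

namespace Vale.Agent.P179R

theorem uu_inj (c : OnePoint ℂ) {q q' : ℂ} (h : uu c q = uu c q') : q = q' := by
  induction c using OnePoint.rec with
  | infty => exact inv_injective h
  | coe a => exact add_left_cancel h

theorem uu_analytic (c : OnePoint ℂ) {n : ℕ} (hn : 0 < n) {q : ℂ} (hq : q ≠ 0) :
    AnalyticAt ℂ (fun q => uu c (q ^ n)) q ∧ deriv (fun q => uu c (q ^ n)) q ≠ 0 := by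
  have h1 : ((n : ℂ) * q ^ (n - 1)) ≠ 0 := mul_ne_zero (Nat.cast_ne_zero.2 hn.ne') (pow_ne_zero _ hq)
  induction c using OnePoint.rec with
  | infty =>
    refine ⟨(analyticAt_id.pow n).inv (pow_ne_zero _ hq), ?_⟩
    have h2 := ((hasDerivAt_pow n q).inv (pow_ne_zero _ hq)).deriv
    refine fun h => ?_
    have h3 : -((n : ℂ) * q ^ (n - 1)) / (q ^ n) ^ 2 = 0 := h2.symm.trans h
    exact div_ne_zero (neg_ne_zero.2 h1) (pow_ne_zero _ (pow_ne_zero _ hq)) h3
  | coe a =>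
    refine ⟨analyticAt_const.add (analyticAt_id.pow n), ?_⟩
    have h2 := ((hasDerivAt_pow n q).const_add a).deriv
    exact fun h => h1 (h2.symm.trans h)

theorem uu_tendsto (c : OnePoint ℂ) {n : ℕ} (hn : 0 < n) :
    Tendsto (fun q : ℂ => ((uu c (q ^ n) : ℂ) : OnePoint ℂ)) (𝓝[≠] 0) (𝓝 c) := by
  have h0 : Tendsto (fun q : ℂ => q ^ n) (𝓝 0) (𝓝 0) := by
    simpa [zero_pow hn.ne'] using (continuous_pow n).tendsto (0 : ℂ)
  induction c using OnePoint.rec with
  | infty =>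
    have h1 : Tendsto (fun q : ℂ => q ^ n) (𝓝[≠] 0) (𝓝[≠] 0) :=
      tendsto_nhdsWithin_iff.2 ⟨h0.mono_left nhdsWithin_le_nhds,
        eventually_mem_nhdsWithin.mono fun q hq => pow_ne_zero _ hq⟩
    have h2 : Tendsto (fun q : ℂ => (q ^ n)⁻¹) (𝓝[≠] 0) (Bornology.cobounded ℂ) :=
      Filter.tendsto_inv₀_nhdsNE_zero.comp h1
    refine OnePoint.tendsto_coe_infty.comp ?_
    rwa [coclosedCompact_eq_cocompact, ← Metric.cobounded_eq_cocompact]
  | coe a =>
    refine (OnePoint.continuous_coe.tendsto a).comp ?_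
    simpa using (h0.const_add a).mono_left nhdsWithin_le_nhds

/-- points near `c` are of the form `uu c (q ^ n)` with `q` small -/
theorem uu_near (c : OnePoint ℂ) {n : ℕ} (hn : 0 < n) {ε : ℝ} (hε : 0 < ε) :
    ∀ᶠ y : OnePoint ℂ in 𝓝 c, ∀ z : ℂ, y = (z : OnePoint ℂ) → y ≠ c →
      ∃ q : ℂ, q ≠ 0 ∧ ‖q‖ < ε ∧ z = uu c (q ^ n) := by
  have key : ∀ v : ℂ, v ≠ 0 → ‖v‖ < ε ^ n → ∃ q : ℂ, q ≠ 0 ∧ ‖q‖ < ε ∧ v = q ^ n := by
    intro v hv h
    obtain ⟨q, rfl⟩ := IsAlgClosed.exists_pow_nat_eq v hn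
    refine ⟨q, fun h => hv (by rw [h, zero_pow hn.ne']), ?_, rfl⟩
    rw [norm_pow] at h
    exact lt_of_pow_lt_pow_left₀ n hε.le h
  have hεn : 0 < ε ^ n := pow_pos hε n
  induction c using OnePoint.rec with
  | infty =>
    have h1 : IsOpen ((fun z : ℂ => (z : OnePoint ℂ)) '' closedBall 0 (ε ^ n)⁻¹)ᶜ :=
      OnePoint.isOpen_compl_image_coe.2 ⟨isClosed_closedBall, isCompact_closedBall _ _⟩
    filter_upwards [h1.mem_nhds (OnePoint.infty_notMem_image_coe)] with y hy z hz _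
    have h2 : (ε ^ n)⁻¹ < ‖z‖ := by
      by_contra h
      exact hy ⟨z, mem_closedBall_zero_iff.2 (not_lt.1 h), hz.symm⟩
    have h3 : 0 < ‖z‖ := (inv_pos.2 hεn).trans h2
    obtain ⟨q, h4, h5, h6⟩ := key z⁻¹ (inv_ne_zero (norm_pos_iff.1 h3)) (by
      rw [norm_inv]
      exact inv_lt_of_inv_lt₀ hεn h2)
    exact ⟨q, h4, h5, by rw [uu_infty, ← h6, inv_inv]⟩
  | coe a =>
    rw [OnePoint.nhds_coe_eq, eventually_map]
    filter_upwards [ball_mem_nhds a hεn] with y hy z hz hne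
    obtain rfl : y = z := OnePoint.coe_injective hz
    obtain ⟨q, h4, h5, h6⟩ := key (y - a) (sub_ne_zero.2 fun h => hne (congrArg _ h))
      (by rwa [← dist_eq_norm])
    exact ⟨q, h4, h5, by rw [uu_coe, ← h6, add_sub_cancel]⟩

theorem qParam_pow {n : ℕ} (hn : 0 < n) (w : ℂ) : Periodic.qParam n w ^ n = ee w := by
  have : (n : ℂ) ≠ 0 := Nat.cast_ne_zero.2 hn.ne'
  simp only [ee, Periodic.qParam]
  rw [← Complex.exp_nat_mul]
  congr 1
  push_cast
  field_simp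

theorem ee_eq {w w' : ℂ} (h : ee w = ee w') : ∃ m : ℤ, w = w' + m := by
  simp only [ee, Periodic.qParam] at h
  obtain ⟨m, hm⟩ := Complex.exp_eq_exp_iff_exists_int.1 h
  refine ⟨m, mul_left_cancel₀ Complex.two_pi_I_ne_zero ?_⟩
  simp only [Complex.ofReal_one, div_one] at hm
  rw [hm]
  ring

theorem qParam_add_mul {n : ℕ} (hn : 0 < n) (w : ℂ) (m : ℤ) :
    Periodic.qParam n (w + m * n) = Periodic.qParam n w := by
  have : (n : ℂ) ≠ 0 := Nat.cast_ne_zero.2 hn.ne'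
  simp only [Periodic.qParam]
  refine Complex.exp_eq_exp_iff_exists_int.2 ⟨m, ?_⟩
  push_cast
  field_simp

theorem map_qParam {h : ℝ} (hh : h ≠ 0) (w : ℂ) :
    map (Periodic.qParam h) (𝓝 w) = 𝓝 (Periodic.qParam h w) := by
  have h1 : HasStrictDerivAt (Periodic.qParam h) (Periodic.qParam h w * (2 * π * Complex.I / h))
      w := by
    have h2 : HasStrictDerivAt (fun z : ℂ => 2 * π * Complex.I * z / h) (2 * π * Complex.I / h)
        w := by
      simpa using ((hasStrictDerivAt_id w).const_mul (2 * π * Complex.I)).div_const (h : ℂ)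
    exact h2.cexp
  exact h1.map_nhds_eq (mul_ne_zero (Periodic.qParam_ne_zero w)
    (div_ne_zero Complex.two_pi_I_ne_zero (Complex.ofReal_ne_zero.2 hh)))

variable {S : Set ℂ} {G X : Type} [Group G] [TopologicalSpace X] [MulAction G X] {p : X → ℂ}

theorem End.discs [Finite G] (h : Cov S G p) {c : OnePoint ℂ} {g : G} (he : End p c g) :
    ∃ (E : Type) (_ : Finite E) (n : ℕ) (ρ : ℝ) (k : E → ℂ → X), 0 < n ∧ 0 < ρ ∧
      (∀ α q, q ≠ 0 → ContinuousAt (k α) q) ∧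
      (∀ α q, q ≠ 0 → ‖q‖ < ρ → p (k α q) = uu c (q ^ n)) ∧
      (∀ α β q q', q ≠ 0 → ‖q‖ < ρ → q' ≠ 0 → ‖q'‖ < ρ → k α q = k β q' → α = β ∧ q = q') ∧
      ∀ x q, q ≠ 0 → ‖q‖ < ρ → p x = uu c (q ^ n) →
        ∃ α q', q' ≠ 0 ∧ ‖q'‖ = ‖q‖ ∧ x = k α q' := by
  obtain ⟨R, j, hj1, hj2, hj3⟩ := he
  set n := orderOf g with hn
  have hn0 : 0 < n := orderOf_pos g
  have hn1 : (0 : ℝ) < n := Nat.cast_pos.2 hn0
  have hjz : ∀ (m : ℤ) w, j (w + m) = g ^ (-m) • j w := by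
    intro m
    induction m using Int.induction_on with
    | zero => simp
    | succ m ih =>
      intro w
      push_cast at ih ⊢
      rw [← add_assoc, hj2, ih, smul_smul, ← zpow_neg_one, ← zpow_add]
      congr 2
      ring
    | pred m ih =>
      intro w
      have h1 := hj2 (w + ((-m - 1 : ℤ) : ℂ))
      have h2 : w + ((-m - 1 : ℤ) : ℂ) + 1 = w + ((-m : ℤ) : ℂ) := by
        push_cast
        ring
      rw [h2, ih, eq_inv_smul_iff, smul_smul, ← zpow_one_add] at h1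
      rw [← h1]
      congr 2
      ring
  let k : ℂ → X := fun q => j (Periodic.invQParam n q)
  have hk : ∀ w, k (Periodic.qParam n w) = j w := by
    intro w
    obtain ⟨m, hm⟩ := Periodic.qParam_left_inv_mod_period hn1.ne' w
    have h1 : g ^ (-(m * n : ℤ)) = 1 := by
      rw [mul_comm, ← mul_neg, zpow_mul, zpow_natCast, pow_orderOf_eq_one, one_zpow]
    have h2 := hjz (m * n) w
    rw [h1, one_smul] at h2
    simp only [k]
    rw [hm, ← h2]
    push_cast
    rfl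
  have hsurj : ∀ q : ℂ, q ≠ 0 → ∃ w, Periodic.qParam n w = q := fun q hq =>
    ⟨_, Periodic.qParam_right_inv hn1.ne' hq⟩
  have hp : ∀ w, ‖Periodic.qParam n w‖ < Real.exp (-2 * π * R / n) →
      p (j w) = uu c (Periodic.qParam n w ^ n) := fun w hw => by
    rw [hj3 w ((Periodic.norm_qParam_lt_iff hn1 R w).1 hw), qParam_pow hn0]
  refine ⟨G ⧸ Subgroup.zpowers g, inferInstance, n, Real.exp (-2 * π * R / n),
    fun α q => α.out • k q, hn0, Real.exp_pos _, fun α q hq => ?_, fun α q hq hρ => ?_,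
    fun α β q q' hq hρ hq' hρ' hkk => ?_, fun x q hq hρ hx => ?_⟩
  · obtain ⟨w, rfl⟩ := hsurj q hq
    refine (h.cont _).continuousAt.comp ?_
    rw [ContinuousAt, ← map_qParam hn1.ne', tendsto_map'_iff, hk,
      show k ∘ Periodic.qParam n = j from funext hk]
    exact hj1.continuousAt
  · obtain ⟨w, rfl⟩ := hsurj q hq
    rw [h.inv, hk, hp w hρ]
  · obtain ⟨w, rfl⟩ := hsurj q hq
    obtain ⟨w', rfl⟩ := hsurj q' hq'
    simp only [hk] at hkk
    have h1 := congrArg p hkk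
    rw [h.inv, h.inv, hp w hρ, hp w' hρ', qParam_pow hn0, qParam_pow hn0] at h1
    obtain ⟨m, rfl⟩ := ee_eq (uu_inj c h1)
    rw [hjz, smul_smul, ← inv_smul_eq_iff, smul_smul] at hkk
    have h2 := h.free _ _ hkk
    have h3 : α = β := by
      rw [← α.out_eq, ← β.out_eq]
      refine QuotientGroup.eq.2 ?_
      rw [inv_mul_eq_one] at h2
      rw [h2, inv_mul_cancel_left]
      exact ⟨-m, rfl⟩
    subst h3
    rw [inv_mul_cancel_left] at h2
    obtain ⟨l, hl⟩ := orderOf_dvd_iff_zpow_eq_one.2 h2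
    refine ⟨rfl, ?_⟩
    have h4 : (m : ℂ) = (-l : ℤ) * n := by
      have : m = -l * n := by rw [neg_mul, mul_comm, ← hl, neg_neg]
      exact_mod_cast this
    rw [h4, qParam_add_mul hn0]
  · obtain ⟨w, rfl⟩ := hsurj q hq
    obtain ⟨a, ha⟩ := h.trans (j w) x (by rw [hx, hp w hρ])
    obtain ⟨⟨_, m, rfl⟩, hb⟩ := QuotientGroup.mk_out_eq_mul (Subgroup.zpowers g) a
    refine ⟨(a : G ⧸ Subgroup.zpowers g), Periodic.qParam n (w + m), Periodic.qParam_ne_zero _,
      ?_, ?_⟩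
    · simp [Periodic.norm_qParam]
    · simp only [hk]
      rw [hjz, hb, smul_smul, mul_assoc, ← zpow_add, add_neg_cancel, zpow_zero, mul_one, ha]

end Vale.Agent.P179R
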