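import Vale.Agent.P179R.Cpt1
import Vale.Agent.P002Z.Pole

/-!
# Filling in the punctures
-/

open Set Filter Topology Polynomial Function Metric
open scoped Manifold

namespace Vale.Agent.P179R

/-- the space `X` with the punctures `E` filled in -/
def FM {X E : Type} (_k : E → ℂ → X) : Type := X ⊕ E

namespace FM

variable {X E : Type} (k : E → ℂ → X)

/-- the inclusion of `X` -/
def inl (x : X) : FM k := Sum.inl x

/-- the new points -/
def inr (α : E) : FM k := Sum.inr α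

theorem inl_inj : Injective (inl k) := Sum.inl_injective

theorem inr_inj : Injective (inr k) := Sum.inr_injective

theorem inl_ne (x : X) (α : E) : inl k x ≠ inr k α := Sum.inl_ne_inr

theorem cases (m : FM k) : (∃ x, m = inl k x) ∨ ∃ α, m = inr k α := by
  rcases m with x | α
  exacts [Or.inl ⟨x, rfl⟩, Or.inr ⟨α, rfl⟩]

open Classical in
/-- the discs -/
noncomputable def K (α : E) (q : ℂ) : FM k := if q = 0 then inr k α else inl k (k α q)

theorem K_zero (α : E) : K k α 0 = inr k α := if_pos rfl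

theorem K_ne (α : E) {q : ℂ} (hq : q ≠ 0) : K k α q = inl k (k α q) := if_neg hq

theorem K_eq_inr {α β : E} {q : ℂ} (h : K k α q = inr k β) : α = β ∧ q = 0 := by
  by_cases hq : q = 0
  · rw [hq, K_zero] at h
    exact ⟨inr_inj k h, hq⟩
  · rw [K_ne k α hq] at h
    exact absurd h (inl_ne k _ _)

theorem K_eq_inl {α : E} {q : ℂ} {x : X} (h : K k α q = inl k x) : q ≠ 0 ∧ k α q = x := by
  by_cases hq : q = 0
  · rw [hq, K_zero] at h
    exact absurd h.symm (inl_ne k _ _)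
  · rw [K_ne k α hq] at h
    exact ⟨hq, inl_inj k h⟩

variable [TopologicalSpace X]

instance : TopologicalSpace (FM k) where
  IsOpen U := IsOpen (inl k ⁻¹' U) ∧ ∀ α, inr k α ∈ U → ∀ᶠ q in 𝓝[≠] 0, inl k (k α q) ∈ U
  isOpen_univ := ⟨isOpen_univ, fun _ _ => Eventually.of_forall fun _ => mem_univ _⟩
  isOpen_inter _ _ h h' := ⟨h.1.inter h'.1, fun α hα => (h.2 α hα.1).and (h'.2 α hα.2)⟩
  isOpen_sUnion s h := ⟨by
      rw [preimage_sUnion]
      exact isOpen_biUnion fun U hU => (h U hU).1,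
    fun α ⟨U, hU, hα⟩ => ((h U hU).2 α hα).mono fun _ hq => ⟨U, hU, hq⟩⟩

theorem isOpen_iff {U : Set (FM k)} : IsOpen U ↔
    IsOpen (inl k ⁻¹' U) ∧ ∀ α, inr k α ∈ U → ∀ᶠ q in 𝓝[≠] 0, inl k (k α q) ∈ U := Iff.rfl

theorem inl_emb : IsOpenEmbedding (inl k) := by
  refine .of_continuous_injective_isOpenMap ⟨fun U hU => hU.1⟩ (inl_inj k) fun V hV => ⟨?_, ?_⟩
  · rwa [preimage_image_eq _ (inl_inj k)]
  · rintro α ⟨x, -, hx⟩
    exact absurd hx (inl_ne k _ _)

variable {k}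

theorem K_cont {α : E} (h : ∀ q, q ≠ 0 → ContinuousAt (k α) q) : Continuous (K k α) := by
  refine continuous_iff_continuousAt.2 fun q => ?_
  by_cases hq : q = 0
  · subst hq
    rw [ContinuousAt, K_zero]
    refine tendsto_nhds.2 fun U hU hα => ?_
    have h1 := hU.2 α hα
    rw [eventually_nhdsWithin_iff] at h1
    filter_upwards [h1] with q hq
    by_cases h0 : q = 0
    · rw [h0, mem_preimage, K_zero]
      exact hα
    · rw [mem_preimage, K_ne k α h0]
      exact hq h0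
  · refine (((inl_emb k).continuous.continuousAt).comp (h q hq)).congr ?_
    filter_upwards [isOpen_ne.mem_nhds hq] with q' hq' using (K_ne k α hq').symm

theorem K_open {α : E} {B : Set ℂ} (h : ∀ q ∈ B, q ≠ 0 → map (k α) (𝓝 q) = 𝓝 (k α q))
    {W : Set ℂ} (hW : IsOpen W) (hB : W ⊆ B) : IsOpen (K k α '' W) := by
  refine ⟨isOpen_iff_mem_nhds.2 ?_, ?_⟩
  · rintro x ⟨q, hq, hx⟩
    obtain ⟨h0, rfl⟩ := K_eq_inl k hx
    rw [← h q (hB hq) h0, mem_map]
    filter_upwards [hW.mem_nhds hq, isOpen_ne.mem_nhds h0] with q' h1 h2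
    exact ⟨q', h1, K_ne k α h2⟩
  · rintro β ⟨q, hq, hβ⟩
    obtain ⟨rfl, rfl⟩ := K_eq_inr k hβ
    filter_upwards [mem_nhdsWithin_of_mem_nhds (hW.mem_nhds hq), self_mem_nhdsWithin] with q h1 h2
    exact ⟨q, h1, K_ne k α h2⟩

end FM

theorem map_nhds_of_comp {A X : Type} [TopologicalSpace A] [TopologicalSpace X] {p : X → ℂ}
    (hp : IsLocalHomeomorph p) {k : A → X} {a : A} (hk : ContinuousAt k a)
    (h : map (fun a => p (k a)) (𝓝 a) = 𝓝 (p (k a))) : map k (𝓝 a) = 𝓝 (k a) := by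
  obtain ⟨e, hx, rfl⟩ := hp (k a)
  rw [← e.symm_map_nhds_eq hx, ← h, map_map]
  refine Filter.map_congr ?_
  filter_upwards [hk.eventually (e.open_source.mem_nhds hx)] with b hb
  exact (e.left_inv hb).symm

theorem tendsto_chart' {A B : Type} [TopologicalSpace A] [TopologicalSpace B]
    (e : OpenPartialHomeomorph A B) {x : A} (hx : x ∈ e.source) :
    Tendsto e (𝓝[≠] x) (𝓝[≠] (e x)) :=
  tendsto_nhdsWithin_iff.2 ⟨(e.continuousAt hx).mono_left nhdsWithin_le_nhds,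
    e.eventually_ne_nhdsWithin hx⟩

theorem diff_of_comp {τ u u' : ℂ → ℂ} {z : ℂ} (hτ : ContinuousAt τ z) (hu : AnalyticAt ℂ u z)
    (hu' : AnalyticAt ℂ u' (τ z)) (hd : deriv u' (τ z) ≠ 0) (h : ∀ᶠ y in 𝓝 z, u' (τ y) = u y) :
    DifferentiableAt ℂ τ z := by
  have h1 : HasStrictDerivAt u' (deriv u' (τ z)) (τ z) := hu'.hasStrictDerivAt
  have h2 := (h1.to_localInverse hd).hasDerivAt.differentiableAt
  have h3 := hτ.eventually (h1.eventually_left_inverse hd)
  rw [h.self_of_nhds] at h2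
  refine (h2.comp z hu.differentiableAt).congr_of_eventuallyEq ?_
  filter_upwards [h, h3] with y h4 h5
  rw [comp_apply, ← h4, h5]

theorem exists_pole_fill {X E : Type} [TopologicalSpace X] [T2Space X] [Finite E] {p : X → ℂ}
    (hp : IsLocalHomeomorph p) (c : E → OnePoint ℂ) (n : E → ℕ) (ρ : E → ℝ) (k : E → ℂ → X)
    (hn : ∀ α, 0 < n α) (hρ : ∀ α, 0 < ρ α) (hc : ∀ α x, c α ≠ p x)
    (hk : ∀ α q, q ≠ 0 → ContinuousAt (k α) q)
    (hpk : ∀ α q, q ≠ 0 → ‖q‖ < ρ α → p (k α q) = uu (c α) (q ^ n α))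
    (hinj : ∀ α β q q', c α = c β → q ≠ 0 → ‖q‖ < ρ α → q' ≠ 0 → ‖q'‖ < ρ β →
      k α q = k β q' → α = β ∧ q = q')
    (hpr : ∀ y : OnePoint ℂ, ∃ N ∈ 𝓝 y, ∃ C : Set X, IsCompact C ∧ ∀ x, (p x : OnePoint ℂ) ∈ N →
      x ∈ C ∨ ∃ α q, q ≠ 0 ∧ ‖q‖ ≤ ρ α / 2 ∧ x = k α q) (x₀ : X) :
    ∃ f : X → ℂ, (∀ x, x ≠ x₀ → HolAt p f x) ∧
      (∃ (m : ℕ) (g : ℂ → ℂ), 0 < m ∧ AnalyticAt ℂ g (p x₀) ∧ g (p x₀) ≠ 0 ∧
        ∀ᶠ y in 𝓝[≠] x₀, (p y - p x₀) ^ m * f y = g (p y)) ∧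
      ∀ O ∈ 𝓝 x₀, ∃ C : ℝ, ∀ x ∉ O, ‖f x‖ ≤ C := by
  have hemb := FM.inl_emb k
  have hmap : ∀ α, ∀ q ∈ ball (0 : ℂ) (ρ α), q ≠ 0 → map (k α) (𝓝 q) = 𝓝 (k α q) := by
    intro α q hq h0
    refine map_nhds_of_comp hp (hk α q h0) ?_
    obtain ⟨h1, h2⟩ := uu_analytic (c α) (hn α) h0
    rw [hpk α q h0 (mem_ball_zero_iff.1 hq), ← h1.hasStrictDerivAt.map_nhds_eq h2]
    refine Filter.map_congr ?_
    filter_upwards [isOpen_ball.mem_nhds hq, isOpen_ne.mem_nhds h0] with q' h3 h4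
    exact hpk α q' h4 (mem_ball_zero_iff.1 h3)
  have hKinj : ∀ α β, c α = c β → ∀ q ∈ ball (0 : ℂ) (ρ α), ∀ q' ∈ ball (0 : ℂ) (ρ β),
      FM.K k α q = FM.K k β q' → α = β ∧ q = q' := by
    intro α β hαβ q hq q' hq' h
    by_cases h0 : q' = 0
    · rw [h0, FM.K_zero] at h
      rw [h0]
      exact FM.K_eq_inr k h
    · rw [FM.K_ne k β h0] at h
      obtain ⟨h1, h2⟩ := FM.K_eq_inl k h
      exact hinj α β q q' hαβ h1 (mem_ball_zero_iff.1 hq) h0 (mem_ball_zero_iff.1 hq') h2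
  have hKopen : ∀ α, IsOpen (FM.K k α '' ball 0 (ρ α)) := fun α =>
    FM.K_open (hmap α) isOpen_ball subset_rfl
  -- the projection to the sphere
  let π : FM k → OnePoint ℂ := Sum.elim (fun x => (p x : OnePoint ℂ)) c
  have hπ : Continuous π := by
    refine ⟨fun U hU => ⟨(OnePoint.continuous_coe.comp hp.continuous).isOpen_preimage U hU,
      fun α hα => ?_⟩⟩
    filter_upwards [(uu_tendsto (c α) (hn α)).eventually (hU.mem_nhds hα), self_mem_nhdsWithin,
      mem_nhdsWithin_of_mem_nhds (ball_mem_nhds (0 : ℂ) (hρ α))] with q h1 h2 h3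
    change ((p (k α q) : ℂ) : OnePoint ℂ) ∈ U
    rwa [hpk α q h2 (mem_ball_zero_iff.1 h3)]
  have hT2 : T2Space (FM k) := by
    refine t2_of_sep (fun m m' h hne => ?_) hπ
    rcases FM.cases k m with ⟨x, rfl⟩ | ⟨α, rfl⟩ <;>
      rcases FM.cases k m' with ⟨y, rfl⟩ | ⟨β, rfl⟩
    · exact separated_by_isOpenEmbedding hemb fun h => hne (congrArg _ h)
    · exact absurd h.symm (hc β x)
    · exact absurd h (hc α y)
    · refine ⟨_, _, hKopen α, hKopen β, ⟨0, mem_ball_self (hρ α), FM.K_zero k α⟩,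
        ⟨0, mem_ball_self (hρ β), FM.K_zero k β⟩, Set.disjoint_left.2 ?_⟩
      rintro _ ⟨q, hq, rfl⟩ ⟨q', hq', h1⟩
      exact hne (congrArg _ (hKinj β α h.symm q' hq' q hq h1).1.symm)
  have hcpt : CompactSpace (FM k) := by
    choose N hN C hC hNC using hpr
    obtain ⟨t, -, ht⟩ := isCompact_univ.elim_nhds_subcover N fun y _ => hN y
    refine ⟨IsCompact.of_isClosed_subset ((t.isCompact_biUnion fun y _ =>
      (hC y).image hemb.continuous).union (isCompact_iUnion fun α =>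
      (isCompact_closedBall (0 : ℂ) (ρ α / 2)).image (FM.K_cont (hk α)))) isClosed_univ ?_⟩
    intro m _
    rcases FM.cases k m with ⟨x, rfl⟩ | ⟨α, rfl⟩
    · obtain ⟨y, hy, hx⟩ := mem_iUnion₂.1 (ht (mem_univ (p x : OnePoint ℂ)))
      rcases hNC y x hx with h | ⟨α, q, h1, h2, rfl⟩
      · exact Or.inl (mem_iUnion₂.2 ⟨y, hy, x, h, rfl⟩)
      · exact Or.inr (mem_iUnion.2 ⟨α, q, mem_closedBall_zero_iff.2 h2, FM.K_ne k α h1⟩)
    · exact Or.inr (mem_iUnion.2 ⟨α, 0, mem_closedBall_self (by linarith [hρ α]), FM.K_zero k α⟩)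
  -- the charts
  choose e he1 he2 using hp
  let Kh : E → OpenPartialHomeomorph ℂ (FM k) := fun α =>
    .ofContinuousOpenRestrict (InjOn.toPartialEquiv (FM.K k α) (ball 0 (ρ α))
      fun q hq q' hq' h => (hKinj α α rfl q hq q' hq' h).2) (FM.K_cont (hk α)).continuousOn
      (fun W hW => by
        have h1 := FM.K_open (hmap α) (isOpen_ball.isOpenMap_subtype_val W hW)
          (Subtype.coe_image_subset _ _)
        convert h1 using 1
        exact (image_image (FM.K k α) Subtype.val W).symm) isOpen_ball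
  let ψ : FM k → OpenPartialHomeomorph ℂ (FM k) :=
    Sum.elim (fun x => ((e x).lift_openEmbedding hemb).symm) Kh
  let u : FM k → ℂ → ℂ := Sum.elim (fun _ z => z) fun α q => uu (c α) (q ^ n α)
  have P1 : ∀ m, m ∈ (ψ m).target := by
    intro m
    rcases FM.cases k m with ⟨x, rfl⟩ | ⟨α, rfl⟩
    · exact ⟨x, he1 x, rfl⟩
    · exact ⟨0, mem_ball_self (hρ α), FM.K_zero k α⟩
  have P2 : ∀ m, ∀ z ∈ (ψ m).source, ∀ x, ψ m z = FM.inl k x →
      p x = u m z ∧ AnalyticAt ℂ (u m) z ∧ deriv (u m) z ≠ 0 := by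
    intro m z hz x hx
    rcases FM.cases k m with ⟨y, rfl⟩ | ⟨α, rfl⟩
    · have h1 : (e y).symm z = x := FM.inl_inj k hx
      refine ⟨?_, analyticAt_id, ?_⟩
      · rw [← h1, he2 y]
        exact (e y).right_inv hz
      · change deriv (fun z : ℂ => z) z ≠ 0
        simp
    · obtain ⟨h1, rfl⟩ := FM.K_eq_inl k hx
      exact ⟨hpk α z h1 (mem_ball_zero_iff.1 hz), uu_analytic (c α) (hn α) h1⟩
  have P3 : ∀ m z α, ψ m z = FM.inr k α → m = FM.inr k α := by
    intro m z α h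
    rcases FM.cases k m with ⟨y, rfl⟩ | ⟨β, rfl⟩
    · exact absurd h (FM.inl_ne k _ _)
    · rw [(FM.K_eq_inr k h).1]
  let _ : ChartedSpace ℂ (FM k) :=
    { atlas := range fun m => (ψ m).symm
      chartAt := fun m => (ψ m).symm
      mem_chart_source := P1
      chart_mem_atlas := fun m => ⟨m, rfl⟩ }
  have : IsManifold 𝓘(ℂ) 1 (FM k) := by
    refine isManifold_of_contDiffOn _ _ _ ?_
    rintro _ _ ⟨m, rfl⟩ ⟨m', rfl⟩
    have hD : DifferentiableOn ℂ (fun z => (ψ m').symm (ψ m z)) (ψ m ≫ₕ (ψ m').symm).source := by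
      intro z hz
      refine DifferentiableAt.differentiableWithinAt ?_
      have hz1 : z ∈ (ψ m).source := hz.1
      have hz2 : ψ m z ∈ (ψ m').target := hz.2
      rcases FM.cases k (ψ m z) with ⟨x, hx⟩ | ⟨α, hα⟩
      · obtain ⟨-, h1, -⟩ := P2 m z hz1 x hx
        obtain ⟨-, h2, h3⟩ := P2 m' _ ((ψ m').map_target hz2) x (by rw [(ψ m').right_inv hz2, hx])
        refine diff_of_comp ((ψ m ≫ₕ (ψ m').symm).continuousAt hz) h1 h2 h3 ?_
        filter_upwards [(ψ m ≫ₕ (ψ m').symm).open_source.mem_nhds hz,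
          ((ψ m).continuousAt hz1).eventually (hemb.isOpen_range.mem_nhds ⟨x, hx.symm⟩)]
          with y hy ⟨x', hx'⟩
        rw [← (P2 m y hy.1 x' hx'.symm).1]
        have hy2 : ψ m y ∈ (ψ m').target := hy.2
        exact (P2 m' _ ((ψ m').map_target hy2) x' (by rw [(ψ m').right_inv hy2, hx'])).1.symm
      · have h1 := P3 m z α hα
        have h2 := P3 m' ((ψ m').symm (ψ m z)) α (by rw [(ψ m').right_inv hz2, hα])
        rw [h2, ← h1]
        exact differentiableAt_id.congr_of_eventuallyEq ((ψ m).eventually_left_inverse hz1)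
    have h1 := hD.contDiffOn (n := 1) (ψ m ≫ₕ (ψ m').symm).open_source
    exact h1.congr_mono (fun _ _ => rfl) fun w hw => hw.1
  obtain ⟨f, hf1, hf2, hf3⟩ := P002Z.exists_pole (FM.inl k x₀)
  have hch : ∀ x, (ψ (FM.inl k x)).symm (FM.inl k x) = p x := fun x => by
    rw [he2 x]
    exact (e x).lift_openEmbedding_apply hemb
  have hloc : ∀ x, ∀ᶠ y in 𝓝 x, FM.inl k y = ψ (FM.inl k x) (p y) := fun x => by
    filter_upwards [(e x).open_source.mem_nhds (he1 x)] with y hy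
    change _ = FM.inl k ((e x).symm (p y))
    rw [he2 x, (e x).left_inv hy]
  refine ⟨fun x => f (FM.inl k x), fun x hx => ?_, ?_, fun O hO => ?_⟩
  · have h1 := hf1 _ ⟨FM.inl k x, rfl⟩ (FM.inl k x) (P1 _) fun h => hx (FM.inl_inj k h)
    rw [hch] at h1
    exact ⟨_, h1, (hloc x).mono fun y hy => congrArg f hy⟩
  · change MeromorphicAt (fun z => f (ψ (FM.inl k x₀) z))
      ((ψ (FM.inl k x₀)).symm (FM.inl k x₀)) at hf2
    have h1 := tendsto_chart' (ψ (FM.inl k x₀)) ((ψ _).map_target (P1 _))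
    rw [(ψ _).right_inv (P1 _)] at h1
    rw [hch] at hf2 h1
    have h2 := (tendsto_cobounded_iff_meromorphicOrderAt_neg hf2).1
      (tendsto_norm_atTop_iff_cobounded.1 (hf3.comp h1))
    obtain ⟨l, hl⟩ := WithTop.ne_top_iff_exists.1 h2.ne_top
    obtain ⟨g, hg1, hg2, hg3⟩ := (meromorphicOrderAt_eq_int_iff hf2).1 hl.symm
    have hl0 : l < 0 := by
      rw [← hl] at h2
      exact_mod_cast h2
    refine ⟨(-l).toNat, g, by omega, hg1, hg2, ?_⟩
    have h3 := tendsto_chart' (e x₀) (he1 x₀)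
    rw [← he2 x₀] at h3
    filter_upwards [h3.eventually hg3, h3.eventually self_mem_nhdsWithin,
      mem_nhdsWithin_of_mem_nhds (hloc x₀)] with y h4 h5 h6
    rw [h6, h4, smul_eq_mul, ← mul_assoc, ← zpow_natCast, ← zpow_add₀ (sub_ne_zero.2 h5),
      Int.toNat_of_nonneg (by omega), neg_add_cancel, zpow_zero, one_mul]
  · obtain ⟨O', hO1, hO2, hO3⟩ := mem_nhds_iff.1 hO
    have h1 : IsCompact (FM.inl k '' O')ᶜ := (hemb.isOpenMap _ hO2).isClosed_compl.isCompact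
    obtain ⟨C, hC⟩ := h1.exists_bound_of_continuousOn (f := f) fun m hm => by
      have h2 := (hf1 _ ⟨m, rfl⟩ m (P1 m) fun h => hm ⟨x₀, hO3, h.symm⟩).continuousAt
      refine ((h2.comp ((ψ m).continuousAt_symm (P1 m))).congr ?_).continuousWithinAt
      filter_upwards [(ψ m).eventually_right_inverse (P1 m)] with y hy
      exact congrArg f hy
    refine ⟨C, fun x hx => hC _ ?_⟩
    rintro ⟨y, hy, h⟩
    exact hx (hO1 (FM.inl_inj k h ▸ hy))

end Vale.Agent.P179R
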