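import Mathlib

/-!
# Riemann existence theorem for covers of `ℙ¹ \ S`: definitions and the statements of the pieces
-/

open Set Filter Topology Polynomial Function
open scoped Real

namespace Vale.Agent.P179R

noncomputable section

/-- the rational function field `ℂ(t)` -/
abbrev F : Type := RatFunc ℂ

/-- its algebraic closure -/
abbrev Fb : Type := AlgebraicClosure F

/-- `ζ_N = exp (2 π i / N)` -/
def zeta (N : ℕ) : ℂ := Complex.exp (2 * π * Complex.I / N)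

/-- `σ` is a canonical inertia generator (of order dividing `N`) at the place of `ℂ(t)` with
uniformizer `τ`: there is an embedding of `L` in `ℂ((s))` with `τ ↦ s ^ N` under which `σ` becomes
the rotation `s ↦ ζ_N s`.  `Loc τ L 1 id` says that the place splits completely in `L`. -/
def Loc (τ : F) (L : Type) [Field L] [Algebra F L] (N : ℕ) (σ : L → L) : Prop :=
  ∃ φ : L →+* LaurentSeries ℂ,
    (∀ c : ℂ, φ (algebraMap F L (RatFunc.C c)) = HahnSeries.C c) ∧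
    φ (algebraMap F L τ) = HahnSeries.single (N : ℤ) 1 ∧
    ∀ (x : L) (n : ℤ), (φ (σ x)).coeff n = zeta N ^ n * (φ x).coeff n

/-- `L` is unramified at all finite points outside `S` -/
def Unram (S : Set ℂ) (L : Type) [Field L] [Algebra F L] : Prop :=
  ∀ z ∉ S, Loc (RatFunc.X - RatFunc.C z) L 1 id

/-- **Riemann existence theorem** (algebraic form). -/
def RET : Prop :=
  ∀ S : Set ℂ, S.Finite → ∃ (r : ℕ) (a : Fin r → ℂ) (γ : Fin r → (Fb ≃ₐ[F] Fb)),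
    Injective a ∧ range a = S ∧
    (∀ (L : IntermediateField F Fb) [FiniteDimensional F L] [Normal F L], Unram S L →
      Subgroup.closure (range fun i => (γ i).restrictNormal L) = ⊤ ∧
      (∀ (i : Fin r) (N : ℕ), 0 < N → (γ i).restrictNormal L ^ N = 1 →
        Loc (RatFunc.X - RatFunc.C (a i)) L N ((γ i).restrictNormal L)) ∧
      (∀ N : ℕ, 0 < N → ((List.ofFn γ).prod⁻¹).restrictNormal L ^ N = 1 →
        Loc RatFunc.X⁻¹ L N (((List.ofFn γ).prod⁻¹).restrictNormal L))) ∧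
    (∀ (G : Type) [Group G] [Finite G] (g : Fin r → G),
      ∃ (L : IntermediateField F Fb) (_ : FiniteDimensional F L) (_ : Normal F L), Unram S L ∧
        ∃ ψ : (L ≃ₐ[F] L) →* G, Injective ψ ∧ ∀ i, ψ ((γ i).restrictNormal L) = g i)

/-! ## the algebraic interface -/

/-- the expansion of `t` at the point `c` of `ℙ¹` in a local parameter `s` with `s ^ N = t - c`
(resp. `1 / t`) -/
def tt (c : OnePoint ℂ) (N : ℕ) : LaurentSeries ℂ :=
  c.elim (HahnSeries.single (-(N : ℤ)) 1) fun a => HahnSeries.C a + HahnSeries.single (N : ℤ) 1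

@[simp] theorem tt_infty (N : ℕ) : tt OnePoint.infty N = HahnSeries.single (-(N : ℤ)) 1 := rfl

@[simp] theorem tt_coe (a : ℂ) (N : ℕ) :
    tt (a : OnePoint ℂ) N = HahnSeries.C a + HahnSeries.single (N : ℤ) 1 := rfl

/-- the substitution `t ↦ tt c N` -/
def sub (c : OnePoint ℂ) (N : ℕ) : ℂ[X] →+* LaurentSeries ℂ :=
  eval₂RingHom HahnSeries.C (tt c N)

/-- Laurent expansion of the elements fixed by `σ ^ N`. -/
def LocA {A : Type} [CommRing A] [Algebra ℂ[X] A] (c : OnePoint ℂ) (N : ℕ)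
    (σ : A →ₐ[ℂ[X]] A) : Prop :=
  ∃ φ : AlgHom.equalizer (σ ^ N) (AlgHom.id ℂ[X] A) →+* LaurentSeries ℂ, Injective φ ∧
    (∀ Q : ℂ[X], φ (algebraMap ℂ[X] _ Q) = sub c N Q) ∧
    ∀ x y : AlgHom.equalizer (σ ^ N) (AlgHom.id ℂ[X] A), (y : A) = σ x →
      ∀ n : ℤ, (φ y).coeff n = zeta N ^ n * (φ x).coeff n

/-- the loop around `∞` -/
def ginf (r : ℕ) : FreeGroup (Fin r) := (List.ofFn (FreeGroup.of : Fin r → FreeGroup (Fin r))).prod⁻¹

/-- The ring `A` of holomorphic functions on the universal cover of `ℂ \ S` integral over `ℂ[t]`. -/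
def ABS : Prop :=
  ∀ S : Set ℂ, S.Finite → ∃ (r : ℕ) (a : Fin r → ℂ), Injective a ∧ range a = S ∧
    ∃ (A : Type) (_ : CommRing A) (_ : IsDomain A) (_ : Algebra ℂ[X] A)
      (ρ : FreeGroup (Fin r) →* (A →ₐ[ℂ[X]] A)),
      Injective (algebraMap ℂ[X] A) ∧ Algebra.IsIntegral ℂ[X] A ∧
      (∀ x : A, (∀ γ, ρ γ x = x) → x ∈ range (algebraMap ℂ[X] A)) ∧
      (∀ z ∉ S, LocA (z : OnePoint ℂ) 1 (ρ 1)) ∧
      (∀ i N, 0 < N → LocA (a i : OnePoint ℂ) N (ρ (FreeGroup.of i))) ∧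
      (∀ N, 0 < N → LocA OnePoint.infty N (ρ (ginf r))) ∧
      (∀ (G : Type) [Group G] [Finite G] (g : FreeGroup (Fin r) →* G),
        ∃ x : A, ∀ γ, ρ γ x = x ↔ g γ = 1) ∧
      ∀ P : ℂ[X][X], P.Monic → 0 < P.natDegree → (P.map (algebraMap ℂ[X] F)).Separable →
        (∀ z ∉ S, (P.map (sub (z : OnePoint ℂ) 1)).Splits) → ∃ x : A, aeval x P = 0

/-- piece ALG (file `Alg.lean`): pure algebra -/
def ALG : Prop := ABS → RET

/-! ## covers -/

/-- `e(w) = exp (2 π i w)` -/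
abbrev ee (w : ℂ) : ℂ := Periodic.qParam 1 w

/-- the inverse of the local coordinate at `c` -/
def uu (c : OnePoint ℂ) (q : ℂ) : ℂ :=
  c.elim q⁻¹ fun a => a + q

@[simp] theorem uu_infty (q : ℂ) : uu OnePoint.infty q = q⁻¹ := rfl

@[simp] theorem uu_coe (a q : ℂ) : uu (a : OnePoint ℂ) q = a + q := rfl

/-- `p : X → ℂ` is a principal `Γ`-cover of `ℂ \ S` -/
structure Cov (S : Set ℂ) (Γ : Type) {X : Type} [Group Γ] [TopologicalSpace X] [MulAction Γ X]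
    (p : X → ℂ) : Prop where
  cov : IsCoveringMapOn p Sᶜ
  mem : ∀ x, p x ∉ S
  surj : ∀ z ∉ S, ∃ x, p x = z
  cont : ∀ g : Γ, Continuous fun x : X => g • x
  inv : ∀ (g : Γ) x, p (g • x) = p x
  trans : ∀ x y, p x = p y → ∃ g : Γ, g • x = y
  free : ∀ (g : Γ) (x : X), g • x = x → g = 1

/-- an end of the cover over the point `c` of `ℙ¹`, with local monodromy `g` -/
def End {Γ X : Type} [Group Γ] [TopologicalSpace X] [MulAction Γ X] (p : X → ℂ) (c : OnePoint ℂ)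
    (g : Γ) : Prop :=
  ∃ (R : ℝ) (j : ℂ → X), Continuous j ∧ (∀ w, j (w + 1) = g⁻¹ • j w) ∧
    ∀ w : ℂ, R < w.im → p (j w) = uu c (ee w)

/-- `f` is holomorphic near `x` -/
def HolAt {X : Type} [TopologicalSpace X] (p f : X → ℂ) (x : X) : Prop :=
  ∃ g : ℂ → ℂ, AnalyticAt ℂ g (p x) ∧ ∀ᶠ y in 𝓝 x, f y = g (p y)

/-- polynomial growth -/
def PG {X : Type} (p f : X → ℂ) : Prop :=
  ∃ (C : ℝ) (m : ℕ), ∀ x, ‖f x‖ ≤ C * (1 + ‖p x‖) ^ m

/-- piece TOP (file `Top.lean`): the universal cover of `ℂ \ S` -/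
def TOP : Prop :=
  ∀ S : Set ℂ, S.Finite → ∃ (r : ℕ) (a : Fin r → ℂ), Injective a ∧ range a = S ∧
    ∃ (X : Type) (_ : TopologicalSpace X) (_ : MulAction (FreeGroup (Fin r)) X) (p : X → ℂ),
      Cov S (FreeGroup (Fin r)) p ∧ PreconnectedSpace X ∧
      (∀ i, End p (a i) (FreeGroup.of i)) ∧ End p OnePoint.infty (ginf r) ∧
      (∀ (Y : Type) [TopologicalSpace Y] (q : Y → ℂ), IsCoveringMapOn q Sᶜ →
        (∀ z ∉ S, ∃ y, q y = z) → ∃ T : X → Y, Continuous T ∧ ∀ x, q (T x) = p x) ∧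
      ∀ (G : Type) [Group G] (g : FreeGroup (Fin r) →* G),
        ∃ (X' : Type) (_ : TopologicalSpace X') (_ : MulAction G X') (p' : X' → ℂ), Cov S G p' ∧
          ∃ T : X → X', Continuous T ∧ (∀ x, p' (T x) = p x) ∧ ∀ γ x, T (γ • x) = g γ • T x

/-- piece CPT (file `Cpt.lean`): compactification and a separating function -/
def CPT : Prop :=
  ∀ (S : Set ℂ), S.Finite → ∀ (G X : Type) [Group G] [Finite G] [TopologicalSpace X]
    [MulAction G X] (p : X → ℂ), Cov S G p → (∀ a ∈ S, ∃ g : G, End p (a : OnePoint ℂ) g) →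
    (∃ g : G, End p OnePoint.infty g) → ∀ x₀ : X, ∃ f : X → ℂ, (∀ x, HolAt p f x) ∧ PG p f ∧
      f x₀ ≠ 0 ∧ ∀ g : G, g ≠ 1 → f (g • x₀) = 0

/-- `P` has a full set of analytic roots near `z` -/
def LocRoots (P : ℂ[X][X]) (z : ℂ) : Prop :=
  ∃ g : Fin P.natDegree → ℂ → ℂ, (∀ k, AnalyticAt ℂ (g k) z) ∧
    (∀ k, ∀ᶠ t in 𝓝 z, P.evalEval t (g k t) = 0) ∧ ∀ k l, g k =ᶠ[𝓝 z] g l → k = l

/-- piece ET (file `Et.lean`): the étalé space of the germs of analytic roots.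
Model: `Y = {(z, J) : ℂ × (ℕ → ℂ) | J = (iteratedDeriv n g z)_n for a root germ g at z}`. -/
def ET : Prop :=
  ∀ P : ℂ[X][X], P.Monic → ∃ (Y : Type) (_ : TopologicalSpace Y) (q ev : Y → ℂ),
    IsCoveringMapOn q {z | LocRoots P z} ∧ (∀ y, LocRoots P (q y) → HolAt q ev y) ∧
    (∀ y, P.evalEval (q y) (ev y) = 0) ∧ (∀ z, LocRoots P z → (q ⁻¹' {z}).Finite) ∧
    ∀ z (g : ℂ → ℂ), AnalyticAt ℂ g z → (∀ᶠ t in 𝓝 z, P.evalEval t (g t) = 0) →
      ∃ y, q y = z ∧ ev y = g z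

/-- functions meromorphic at `0` -/
def M0 : Subring (ℂ → ℂ) where
  carrier := {f | MeromorphicAt f 0}
  mul_mem' hf hg := hf.mul hg
  one_mem' := MeromorphicAt.const 1 0
  add_mem' hf hg := hf.add hg
  zero_mem' := MeromorphicAt.const 0 0
  neg_mem' hf := hf.neg

/-- piece LAU (file `Lau.lean`): Laurent expansion -/
def LAU : Prop :=
  ∃ Λ : M0 →+* LaurentSeries ℂ, (∀ f : M0, Λ f = 0 ↔ (f : ℂ → ℂ) =ᶠ[𝓝[≠] 0] 0) ∧
    (∀ (f : M0) (c : ℂ), (∀ q, (f : ℂ → ℂ) q = c) → Λ f = HahnSeries.C c) ∧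
    (∀ f : M0, (∀ q, (f : ℂ → ℂ) q = q) → Λ f = HahnSeries.single 1 1) ∧
    ∀ (ζ : ℂ), ζ ≠ 0 → ∀ f g : M0, (∀ᶠ q in 𝓝[≠] 0, (g : ℂ → ℂ) q = (f : ℂ → ℂ) (ζ * q)) →
      ∀ n : ℤ, (Λ g).coeff n = ζ ^ n * (Λ f).coeff n

/-- piece CUSP (file `Cusp.lean`): periodic functions of moderate growth on a half plane -/
def CUSP : Prop :=
  ∀ (f : ℂ → ℂ) (h R C : ℝ) (m : ℕ), 0 < h → (∀ w : ℂ, R < w.im → f (w + h) = f w) →
    (∀ w : ℂ, R < w.im → DifferentiableAt ℂ f w) →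
    (∀ w : ℂ, R < w.im → ‖Periodic.qParam h w ^ m * f w‖ ≤ C) →
    (∀ w : ℂ, R < w.im → f (Periodic.invQParam h (Periodic.qParam h w)) = f w) ∧
    ∃ g : ℂ → ℂ, AnalyticAt ℂ g 0 ∧ ∀ᶠ q in 𝓝[≠] 0, g q = q ^ m * f (Periodic.invQParam h q)

/-- piece GROW1 (file `Grow.lean`): roots of a monic polynomial have polynomial growth -/
def GROW1 : Prop :=
  ∀ P : ℂ[X][X], P.Monic → ∃ (C : ℝ) (m : ℕ), ∀ t y : ℂ, P.evalEval t y = 0 →
    ‖y‖ ≤ C * (1 + ‖t‖) ^ m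

/-- piece GROW2 (file `Grow.lean`): Riemann + Liouville -/
def GROW2 : Prop :=
  ∀ (S : Set ℂ), S.Finite → ∀ (f : ℂ → ℂ) (C : ℝ) (m : ℕ), (∀ z ∉ S, AnalyticAt ℂ f z) →
    (∀ z ∉ S, ‖f z‖ ≤ C * (1 + ‖z‖) ^ m) → ∃ Q : ℂ[X], ∀ z ∉ S, f z = Q.eval z

/-- piece LOC0 (file `Loc0.lean`): simple roots are analytic (implicit function theorem), and
they are simple off a finite set -/
def LOC0 : Prop :=
  ∀ P : ℂ[X][X], P.Monic →
    (∀ z : ℂ, (P.map (evalRingHom z)).Separable →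
      ∃ g : Fin P.natDegree → ℂ → ℂ, (∀ k, AnalyticAt ℂ (g k) z) ∧
        (∀ k, ∀ᶠ t in 𝓝 z, P.evalEval t (g k t) = 0) ∧ Injective fun k => g k z) ∧
    ((P.map (algebraMap ℂ[X] F)).Separable → {z : ℂ | ¬ (P.map (evalRingHom z)).Separable}.Finite)

/-- piece LOC (file `Loc.lean`, uses ET, LOC0, LAU, CUSP, GROW1): formal roots converge -/
def LOC : Prop :=
  ∀ P : ℂ[X][X], P.Monic → (P.map (algebraMap ℂ[X] F)).Separable → ∀ z : ℂ,
    (P.map (sub (z : OnePoint ℂ) 1)).Splits → LocRoots P z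

end

end Vale.Agent.P179R
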