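import Vale.Agent.P179R.Defs

/-!
# The implicit function theorem for a polynomial in two variables
-/

open Set Filter Topology Polynomial Function
open scoped ContDiff

namespace Vale.Agent.P179R

theorem contDiff_evalEval (Q : ℂ[X][X]) :
    ContDiff ℂ ω fun v : ℂ × ℂ => Q.evalEval v.1 v.2 := by
  induction Q using Polynomial.induction_on' with
  | add p q hp hq => simp only [evalEval_add]; exact hp.add hq
  | monomial n a =>
    have h1 : ContDiff ℂ ω fun v : ℂ × ℂ => a.eval v.1 := by
      have : ContDiff ℂ ω fun x : ℂ => a.eval x := by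
        simpa [Polynomial.aeval_def, eval₂_eq_eval_map] using a.contDiff_aeval (𝕜 := ℂ) ω
      exact this.comp contDiff_fst
    have : (fun v : ℂ × ℂ => (monomial n a : ℂ[X][X]).evalEval v.1 v.2) =
        fun v => a.eval v.1 * v.2 ^ n := by
      funext v
      rw [← C_mul_X_pow_eq_monomial, evalEval_mul, evalEval_pow, evalEval_C, evalEval_X]
    rw [this]
    exact h1.mul (contDiff_snd.pow n)

theorem analyticAt_evalEval (Q : ℂ[X][X]) {f g : ℂ → ℂ} {z : ℂ} (hf : AnalyticAt ℂ f z)
    (hg : AnalyticAt ℂ g z) : AnalyticAt ℂ (fun t => Q.evalEval (f t) (g t)) z :=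
  ((contDiff_evalEval Q).contDiffAt.analyticAt (x := (f z, g z))).comp_of_eq (hf.prod hg) rfl

/-- implicit function theorem for polynomials -/
theorem exists_root (Q : ℂ[X][X]) (s u : ℂ) (h0 : Q.evalEval s u = 0)
    (h1 : (derivative Q).evalEval s u ≠ 0) :
    ∃ g : ℂ → ℂ, AnalyticAt ℂ g s ∧ g s = u ∧ ∀ᶠ t in 𝓝 s, Q.evalEval t (g t) = 0 := by
  set f : ℂ × ℂ → ℂ := fun v => Q.evalEval v.1 v.2 with hf
  have cdf : ContDiffAt ℂ ω f (s, u) := (contDiff_evalEval Q).contDiffAt
  have hd : HasFDerivAt f (fderiv ℂ f (s, u)) (s, u) :=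
    (cdf.differentiableAt (by simp)).hasFDerivAt
  have h2 : HasFDerivAt (fun y : ℂ => f (s, y))
      (fderiv ℂ f (s, u) ∘L ContinuousLinearMap.inr ℂ ℂ ℂ) u :=
    hd.comp u (hasFDerivAt_prodMk_right s u)
  have h3 : HasDerivAt (fun y : ℂ => f (s, y)) ((derivative Q).evalEval s u) u := by
    have := (Q.map (evalRingHom s)).hasDerivAt u
    rw [derivative_map, map_evalRingHom_eval] at this
    simpa only [map_evalRingHom_eval] using this
  have h4 := h2.unique h3.hasFDerivAt
  have hinv : (fderiv ℂ f (s, u) ∘L ContinuousLinearMap.inr ℂ ℂ ℂ).IsInvertible := by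
    rw [h4]
    refine ⟨ContinuousLinearEquiv.unitsEquivAut ℂ (Units.mk0 _ h1), ?_⟩
    ext
    simp
  refine ⟨cdf.implicitFunction (by simp) hinv, ?_, cdf.implicitFunction_apply_self _ hinv, ?_⟩
  · exact (cdf.contDiffAt_implicitFunction (by simp) hinv).analyticAt
  · filter_upwards [cdf.eventually_apply_implicitFunction (by simp) hinv] with t ht
    exact ht.trans h0

end Vale.Agent.P179R
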