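import Vale.Agent.P179R.Defs

/-!
# Simple roots are analytic, and roots are simple off a finite set
-/

open Set Filter Topology Polynomial Function
open scoped ContDiff

namespace Vale.Agent.P179R

theorem contDiff_evalEval₂ (P : ℂ[X][X]) :
    ContDiff ℂ ω fun u : ℂ × ℂ => P.evalEval u.1 u.2 := by
  have h1 : ∀ Q : ℂ[X], ContDiff ℂ ω fun u : ℂ × ℂ => Q.eval u.1 := fun Q =>
    (Q.contDiff_aeval (𝕜 := ℂ) ω).comp contDiff_fst
  induction P using Polynomial.induction_on' with
  | add p q hp hq => simpa only [evalEval_add] using hp.add hq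
  | monomial n a =>
    have : (fun u : ℂ × ℂ => (monomial n a : ℂ[X][X]).evalEval u.1 u.2) =
        fun u => a.eval u.1 * u.2 ^ n := by
      ext u; simp [evalEval, eval_monomial]
    rw [this]
    exact (h1 a).mul (contDiff_snd.pow n)

/-- a simple root extends analytically -/
theorem root_germ (P : ℂ[X][X]) (z y : ℂ) (h0 : P.evalEval z y = 0)
    (h1 : (derivative (P.map (evalRingHom z))).eval y ≠ 0) :
    ∃ g : ℂ → ℂ, AnalyticAt ℂ g z ∧ (∀ᶠ t in 𝓝 z, P.evalEval t (g t) = 0) ∧ g z = y := by
  have cdf : ContDiffAt ℂ ω (fun u : ℂ × ℂ => P.evalEval u.1 u.2) (z, y) :=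
    (contDiff_evalEval₂ P).contDiffAt
  have hd : HasFDerivAt (fun w : ℂ => P.evalEval z w)
      (fderiv ℂ (fun u : ℂ × ℂ => P.evalEval u.1 u.2) (z, y) ∘L .inr ℂ ℂ ℂ) y :=
    HasFDerivAt.comp (f := fun w : ℂ => (z, w)) y
      (cdf.differentiableAt (by simp)).hasFDerivAt (hasFDerivAt_prodMk_right z y)
  have hd' : HasDerivAt (fun w : ℂ => P.evalEval z w)
      ((derivative (P.map (evalRingHom z))).eval y) y := by
    simpa only [map_evalRingHom_eval] using (P.map (evalRingHom z)).hasDerivAt y
  have inv : (fderiv ℂ (fun u : ℂ × ℂ => P.evalEval u.1 u.2) (z, y) ∘L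
      .inr ℂ ℂ ℂ).IsInvertible := by
    rw [hd.unique hd'.hasFDerivAt]
    refine ⟨ContinuousLinearEquiv.unitsEquivAut ℂ (Units.mk0 _ h1), ?_⟩
    ext
    simp
  refine ⟨cdf.implicitFunction (by simp) inv, ?_, ?_, cdf.implicitFunction_apply_self _ inv⟩
  · exact (cdf.contDiffAt_implicitFunction (by simp) inv).analyticAt
  · simpa only [h0] using cdf.eventually_apply_implicitFunction (by simp) inv

theorem finite_insep (P : ℂ[X][X]) (h : (P.map (algebraMap ℂ[X] F)).Separable) :
    {z : ℂ | ¬ (P.map (evalRingHom z)).Separable}.Finite := by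
  obtain ⟨a, b, hab⟩ := h
  obtain ⟨d, hd, hda⟩ := IsLocalization.integerNormalization_spec (nonZeroDivisors ℂ[X]) a
  obtain ⟨e, he, heb⟩ := IsLocalization.integerNormalization_spec (nonZeroDivisors ℂ[X]) b
  set A := IsLocalization.integerNormalization (nonZeroDivisors ℂ[X]) a
  set B := IsLocalization.integerNormalization (nonZeroDivisors ℂ[X]) b
  have key : C e * A * P + C d * B * derivative P = C (d * e) := by
    apply Polynomial.map_injective (algebraMap ℂ[X] F) (IsFractionRing.injective _ _)
    simp only [Polynomial.map_add, Polynomial.map_mul, map_C, hda, heb, ← derivative_map,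
      Algebra.smul_def, Polynomial.algebraMap_apply, map_mul]
    linear_combination (C (algebraMap ℂ[X] F d) * C (algebraMap ℂ[X] F e)) * hab
  have hde : d * e ≠ 0 := nonZeroDivisors.ne_zero (mul_mem hd he)
  refine (finite_setOfPred_isRoot hde).subset fun z hz => ?_
  by_contra hz'
  refine hz ⟨C ((d * e).eval z)⁻¹ * (C e * A).map (evalRingHom z),
    C ((d * e).eval z)⁻¹ * (C d * B).map (evalRingHom z), ?_⟩
  have k := congrArg (Polynomial.map (evalRingHom z)) key
  rw [Polynomial.map_add, Polynomial.map_mul _ (q := P), Polynomial.map_mul _ (q := derivative P),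
    ← derivative_map, map_C, coe_evalRingHom] at k
  rw [mul_assoc, mul_assoc, ← mul_add, k, ← C_mul, inv_mul_cancel₀ hz', C_1]

theorem loc0 : LOC0 := by
  classical
  intro P hP
  refine ⟨fun z hz => ?_, finite_insep P⟩
  have hc : (P.map (evalRingHom z)).roots.toFinset.card = P.natDegree := by
    rw [Multiset.toFinset_card_of_nodup (nodup_roots hz), ← hP.natDegree_map (evalRingHom z)]
    exact ((IsAlgClosed.splits _).natDegree_eq_card_roots).symm
  let y : Fin P.natDegree → ℂ := fun k =>
    (((P.map (evalRingHom z)).roots.toFinset.equivFinOfCardEq hc).symm k : ℂ)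
  have hy : Injective y := Subtype.val_injective.comp (Equiv.injective _)
  have hr : ∀ k, (P.map (evalRingHom z)).eval (y k) = 0 := fun k =>
    isRoot_of_mem_roots (Multiset.mem_toFinset.1 (Subtype.prop _))
  choose g h1 h2 h3 using fun k => root_germ P z (y k)
    (by rw [← map_evalRingHom_eval]; exact hr k)
    (by simpa using hz.aeval_derivative_ne_zero (x := y k) (by simpa using hr k))
  exact ⟨g, h1, h2, by simpa only [h3] using hy⟩

end Vale.Agent.P179R
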