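import Vale.Agent.P179R.Cov
import Vale.Agent.P002Z.PlaneA

/-!
# The cover of `ℂ \ range b` glued from two charts along the strips
-/

open Set Filter Topology Polynomial Function
open Vale.Agent.P002Z (Up Strip up_subset isOpen_up strip_subset isOpen_strip convex_strip
  not_re_of_up strip_unique up_cover exists_strip strip_nonempty contractible_up)

namespace Vale.Agent.P179R

variable {r : ℕ}

/-- the two charts -/
def UU (b : Fin r → ℂ) : Bool → Set ℂ
  | true => Up b 1
  | false => Up b (-1)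

theorem isOpen_UU (b : Fin r → ℂ) (i : Bool) : IsOpen (UU b i) := by
  cases i <;> exact isOpen_up b _

theorem UU_subset (b : Fin r → ℂ) (i : Bool) : UU b i ⊆ (range b)ᶜ := by
  cases i <;> exact up_subset b _

theorem strip_UU (b : Fin r → ℂ) (k : ℕ) (i : Bool) : Strip b k ⊆ UU b i := by
  cases i <;> exact strip_subset b k _

theorem UU_cover {b : Fin r → ℂ} (hb : StrictMono fun j => (b j).re) {z : ℂ} (hz : z ∉ range b) :
    ∃ i, z ∈ UU b i := by
  rcases up_cover hb hz with h | h
  exacts [⟨true, h⟩, ⟨false, h⟩]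

theorem UU_strip {b : Fin r → ℂ} (hb : StrictMono fun j => (b j).re) {z : ℂ}
    (h1 : z ∈ UU b true) (h2 : z ∈ UU b false) : ∃ k ≤ r, z ∈ Strip b k :=
  exists_strip hb (not_re_of_up b h1 h2)

instance contr_UU (b : Fin r → ℂ) (i : Bool) : ContractibleSpace (UU b i) := by
  cases i
  · exact contractible_up b (e := -1) (by norm_num)
  · exact contractible_up b (e := 1) (by norm_num)

theorem isPreconnected_UU (b : Fin r → ℂ) (i : Bool) : IsPreconnected (UU b i) :=
  isPreconnected_iff_preconnectedSpace.2 inferInstance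

/-- a cover with two sections glued by the elements `c k` -/
structure Mdl (b : Fin r → ℂ) {Γ X : Type} [Group Γ] [TopologicalSpace X] [MulAction Γ X]
    (c : ℕ → Γ) (p : X → ℂ) (s : Bool → ℂ → X) : Prop where
  cov : Cov (range b) Γ p
  cont : ∀ i, ContinuousOn (s i) (UU b i)
  sec : ∀ i, ∀ z ∈ UU b i, p (s i z) = z
  glue : ∀ k ≤ r, ∀ z ∈ Strip b k, s true z = c k • s false z

theorem exists_mdl {b : Fin r → ℂ} (hb : StrictMono fun j => (b j).re) (Γ : Type) [Group Γ]
    (c : ℕ → Γ) : ∃ (X : Type) (_ : TopologicalSpace X) (_ : MulAction Γ X) (p : X → ℂ)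
      (s : Bool → ℂ → X), Mdl b c p s := by
  classical
  let _ : TopologicalSpace Γ := ⊥
  have : DiscreteTopology Γ := ⟨rfl⟩
  let κ : Bool → ℂ → Γ := fun i z =>
    if i then 1 else if h : ∃ k ≤ r, z ∈ Strip b k then c h.choose else 1
  have hκ : ∀ k ≤ r, ∀ z ∈ Strip b k, κ false z = c k := by
    intro k hk z hz
    have h : ∃ k ≤ r, z ∈ Strip b k := ⟨k, hk, hz⟩
    simp only [κ, Bool.false_eq_true, if_false, dif_pos h]
    rw [strip_unique b h.choose_spec.1 hk h.choose_spec.2 hz]
  have hκt : ∀ z, κ true z = 1 := fun z => rfl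
  have hlc : ∀ i j, ∀ z ∈ UU b i ∩ UU b j,
      ∀ᶠ w in 𝓝 z, (κ i w)⁻¹ * κ j w = (κ i z)⁻¹ * κ j z := by
    intro i j z hz
    by_cases hij : i = j
    · subst hij
      simp
    have h : ∃ k ≤ r, z ∈ Strip b k := by
      cases i <;> cases j
      · exact absurd rfl hij
      · exact UU_strip hb hz.2 hz.1
      · exact UU_strip hb hz.1 hz.2
      · exact absurd rfl hij
    obtain ⟨k, hk, hzk⟩ := h
    filter_upwards [(isOpen_strip b k).mem_nhds hzk] with w hw
    have h1 : ∀ l, κ l w = κ l z := by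
      intro l
      cases l
      · rw [hκ k hk w hw, hκ k hk z hzk]
      · rfl
    rw [h1, h1]
  let B := ↥(range b)ᶜ
  have hidx : ∀ z : B, ∃ i, (z : ℂ) ∈ UU b i := fun z => UU_cover hb z.2
  choose idx hidx using hidx
  let Z : FiberBundleCore Bool B Γ :=
    { baseSet := fun i => Subtype.val ⁻¹' UU b i
      isOpen_baseSet := fun i => (isOpen_UU b i).preimage continuous_subtype_val
      indexAt := idx
      mem_baseSet_at := hidx
      coordChange := fun i j z γ => γ * ((κ i z)⁻¹ * κ j z)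
      coordChange_self := fun i z _ γ => by simp
      continuousOn_coordChange := fun i j => by
        refine continuousOn_prod_of_discrete_right.2 fun γ => ?_
        intro z hz
        refine ContinuousAt.continuousWithinAt ?_
        refine (continuousAt_const (y := γ * ((κ i z)⁻¹ * κ j z))).congr ?_
        filter_upwards [continuous_subtype_val.continuousAt.eventually (hlc i j z hz.1)] with w hw
        rw [hw]
      coordChange_comp := fun i j k z _ γ => by group }
  let mk : B → Γ → Z.TotalSpace := fun z γ => ⟨z, γ⟩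
  let sd : Z.TotalSpace → Γ := fun x => x.2
  let act : MulAction Γ Z.TotalSpace :=
    { smul := fun g x => mk x.1 (g * sd x)
      one_smul := fun x => congrArg (mk x.1) (one_mul (sd x))
      mul_smul := fun g h x => congrArg (mk x.1) (mul_assoc g h (sd x)) }
  obtain ⟨z₀, hz₀⟩ := strip_nonempty hb 0
  let s : Bool → ℂ → Z.TotalSpace := fun i z =>
    if h : z ∈ (range b)ᶜ then (Z.localTriv i).toOpenPartialHomeomorph.symm (⟨z, h⟩, 1)
    else ⟨⟨z₀, UU_subset b true (strip_UU b 0 true hz₀)⟩, (1 : Γ)⟩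
  have hs : ∀ i z (h : z ∈ (range b)ᶜ), s i z =
      mk ⟨z, h⟩ ((1 : Γ) * ((κ i z)⁻¹ * κ (idx ⟨z, h⟩) z)) := by
    intro i z h
    simp only [s, dif_pos h]
    rfl
  refine ⟨Z.TotalSpace, inferInstance, act, fun x => (x.1 : ℂ), s, ⟨⟨?_, fun x => x.1.2,
    fun z hz => ⟨⟨⟨z, hz⟩, (1 : Γ)⟩, rfl⟩, fun g => ?_, fun g x => rfl, ?_, ?_⟩, fun i => ?_,
    fun i z hz => ?_, fun k hk z hz => ?_⟩⟩
  · exact IsCoveringMapOn.of_isCoveringMap_subtype (finite_range b).isClosed.isOpen_compl
      (fun x => x.1.2) (FiberBundle.isCoveringMap (F := Γ) (E := Z.Fiber))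
  · refine continuous_iff_continuousAt.2 fun x => ?_
    rw [FiberBundle.continuousAt_totalSpace]
    refine ⟨Z.continuous_proj.continuousAt, ?_⟩
    have h1 := ((FiberBundle.continuousAt_totalSpace Γ (id : Z.TotalSpace → Z.TotalSpace)
      (x₀ := x)).1 continuousAt_id).2
    have h2 := (continuous_of_discreteTopology (f := fun γ : Γ => g * γ)).continuousAt.comp h1
    convert h2 using 1
    funext y
    exact mul_assoc g _ _
  · rintro ⟨z, γ⟩ ⟨w, δ⟩ h
    obtain rfl : z = w := Subtype.ext h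
    exact ⟨sd ⟨z, δ⟩ * (sd ⟨z, γ⟩)⁻¹, congrArg (mk z) (inv_mul_cancel_right _ _)⟩
  · intro g x h
    have h1 : g * sd x = sd x := congrArg sd h
    exact mul_eq_right.1 h1
  · rw [continuousOn_iff_continuous_domRestrict]
    have h1 : Continuous fun z : UU b i => (Z.localTriv i).toOpenPartialHomeomorph.symm
        ((⟨z, UU_subset b i z.2⟩ : B), (1 : Γ)) := by
      refine (Z.localTriv i).toOpenPartialHomeomorph.continuousOn_symm.comp_continuous
        ((continuous_subtype_val.subtype_mk _).prodMk continuous_const) fun z => ?_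
      exact (Z.mem_localTriv_target i _).2 z.2
    convert h1 using 1
    funext z
    exact dif_pos (UU_subset b i z.2)
  · rw [hs i z (UU_subset b i hz)]
  · have h := UU_subset b true (strip_UU b k true hz)
    rw [hs true z h, hs false z h, hκ k hk z hz, hκt]
    refine congrArg (mk ⟨z, h⟩) ?_
    change _ = c k * (1 * ((c k)⁻¹ * κ (idx ⟨z, h⟩) z))
    group

namespace Mdl

variable {b : Fin r → ℂ} {Γ X : Type} [Group Γ] [TopologicalSpace X] [MulAction Γ X]
  {c : ℕ → Γ} {p : X → ℂ} {s : Bool → ℂ → X}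

theorem exists_rep (h : Mdl b c p s) {i : Bool} {x : X} (hx : p x ∈ UU b i) :
    ∃ g : Γ, g • s i (p x) = x :=
  h.cov.trans _ _ (h.sec i _ hx)

theorem smul_inj (h : Mdl b c p s) {g g' : Γ} {x : X} (he : g • x = g' • x) : g = g' := by
  have := h.cov.free (g'⁻¹ * g) x (by rw [mul_smul, he, inv_smul_smul])
  exact (inv_mul_eq_one.1 this).symm

theorem eventually_rep (h : Mdl b c p s) {i : Bool} {x : X} (hx : p x ∈ UU b i) {g : Γ}
    (hg : g • s i (p x) = x) : ∀ᶠ y in 𝓝 x, g • s i (p y) = y := by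
  have h1 : ∀ᶠ y in 𝓝 x, p y ∈ UU b i :=
    h.cov.continuous.continuousAt.eventually ((isOpen_UU b i).mem_nhds hx)
  refine h.cov.eventuallyEq (g₁ := fun y => g • s i (p y)) (g₂ := id) ?_ continuousAt_id ?_ hg
  · exact (h.cov.cont g).continuousAt.comp (((h.cont i).continuousAt
      ((isOpen_UU b i).mem_nhds hx)).comp h.cov.continuous.continuousAt)
  · filter_upwards [h1] with y hy
    rw [h.cov.inv, h.sec i _ hy]
    rfl

/-- the universal property of the glued cover -/
theorem exists_map (hb : StrictMono fun j => (b j).re) (h : Mdl b c p s) {Y : Type}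
    [TopologicalSpace Y] (T : Bool → Γ → ℂ → Y) (hT : ∀ i g, ContinuousOn (T i g) (UU b i))
    (hgl : ∀ k ≤ r, ∀ z ∈ Strip b k, ∀ g, T true g z = T false (g * c k) z) :
    ∃ Φ : X → Y, Continuous Φ ∧ ∀ i g, ∀ z ∈ UU b i, Φ (g • s i z) = T i g z := by
  have h1 : ∀ x, ∃ i, p x ∈ UU b i := fun x => UU_cover hb (h.cov.mem x)
  choose idx hidx using h1
  choose g hg using fun x => h.exists_rep (hidx x)
  have key : ∀ i γ, ∀ z ∈ UU b i, ∀ j δ, z ∈ UU b j → γ • s i z = δ • s j z →
      T i γ z = T j δ z := by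
    intro i γ z hi j δ hj he
    cases i <;> cases j
    · rw [h.smul_inj he]
    · obtain ⟨k, hk, hz⟩ := UU_strip hb hj hi
      rw [h.glue k hk z hz, smul_smul] at he
      rw [hgl k hk z hz, h.smul_inj he]
    · obtain ⟨k, hk, hz⟩ := UU_strip hb hi hj
      rw [h.glue k hk z hz, smul_smul] at he
      rw [hgl k hk z hz, h.smul_inj he]
    · rw [h.smul_inj he]
  have hΦ : ∀ i γ, ∀ z ∈ UU b i,
      T (idx (γ • s i z)) (g (γ • s i z)) (p (γ • s i z)) = T i γ z := by
    intro i γ z hz
    have h2 : p (γ • s i z) = z := by rw [h.cov.inv, h.sec i z hz]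
    have h3 := hidx (γ • s i z)
    have h4 := hg (γ • s i z)
    rw [h2] at h3 h4 ⊢
    exact key _ _ z h3 _ _ hz h4
  refine ⟨fun x => T (idx x) (g x) (p x), continuous_iff_continuousAt.2 fun x => ?_, hΦ⟩
  have h1 : ∀ᶠ y in 𝓝 x, p y ∈ UU b (idx x) :=
    h.cov.continuous.continuousAt.eventually ((isOpen_UU b _).mem_nhds (hidx x))
  refine (((hT (idx x) (g x)).continuousAt ((isOpen_UU b _).mem_nhds (hidx x))).comp
    h.cov.continuous.continuousAt).congr ?_
  filter_upwards [h1, h.eventually_rep (hidx x) (hg x)] with y hy1 hy2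
  have := hΦ (idx x) (g x) (p y) hy1
  rw [hy2] at this
  exact this.symm

end Mdl

end Vale.Agent.P179R
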