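import Vale.Agent.P179R.Model

/-!
# Connectedness, lifting property and ends of the glued cover
-/

open Set Filter Topology Polynomial Function
open Vale.Agent.P002Z (Up Strip up_subset isOpen_up strip_subset isOpen_strip convex_strip
  not_re_of_up strip_unique up_cover exists_strip strip_nonempty contractible_up)
open scoped Real

namespace Vale.Agent.P179R

variable {r : ℕ}

namespace Mdl

variable {b : Fin r → ℂ} {Γ X : Type} [Group Γ] [TopologicalSpace X] [MulAction Γ X]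
  {c : ℕ → Γ} {p : X → ℂ} {s : Bool → ℂ → X}

theorem preconn (hb : StrictMono fun j => (b j).re) (h : Mdl b c p s) (h0 : c 0 = 1)
    (hgen : ∀ H : Subgroup Γ, (∀ k ≤ r, c k ∈ H) → H = ⊤) : PreconnectedSpace X := by
  obtain ⟨z₀, hz₀⟩ := strip_nonempty hb 0
  set x₀ := s false z₀ with hx₀
  have hx₀' : ∀ i, s i z₀ = x₀ := by
    intro i
    cases i
    · rfl
    · rw [h.glue 0 (Nat.zero_le _) z₀ hz₀, h0, one_smul]
  have h1 : ∀ (g : Γ) i, ∀ z ∈ UU b i, g • s i z ∈ connectedComponent (g • x₀) := by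
    intro g i z hz
    have h2 : IsPreconnected ((fun w => g • s i w) '' UU b i) :=
      (isPreconnected_UU b i).image _ ((h.cov.cont g).comp_continuousOn (h.cont i))
    exact h2.subset_connectedComponent ⟨z₀, strip_UU b 0 i hz₀, by simp only [hx₀']⟩ ⟨z, hz, rfl⟩
  have h3 : ∀ (g : Γ) x y, y ∈ connectedComponent x → g • y ∈ connectedComponent (g • x) :=
    fun g x y hy => (h.cov.cont g).image_connectedComponent_subset x ⟨y, hy, rfl⟩
  let H : Subgroup Γ :=
    { carrier := {g | g • x₀ ∈ connectedComponent x₀}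
      one_mem' := by simpa using mem_connectedComponent
      mul_mem' := fun {g g'} hg hg' => by
        have h4 := h3 g _ _ hg'
        rw [← connectedComponent_eq hg, smul_smul] at h4
        exact h4
      inv_mem' := fun {g} hg => by
        have h4 := h3 g⁻¹ _ _ hg
        rw [inv_smul_smul] at h4
        change g⁻¹ • x₀ ∈ connectedComponent x₀
        rw [← connectedComponent_eq h4]
        exact mem_connectedComponent }
  have hH : H = ⊤ := by
    refine hgen H fun k hk => ?_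
    obtain ⟨z, hz⟩ := strip_nonempty hb k
    have h4 := h1 1 true z (strip_UU b k true hz)
    have h5 := h1 (c k) false z (strip_UU b k false hz)
    rw [one_smul, one_smul, h.glue k hk z hz] at h4
    change c k • x₀ ∈ connectedComponent x₀
    rw [connectedComponent_eq h4, ← connectedComponent_eq h5]
    exact mem_connectedComponent
  refine ⟨?_⟩
  have : connectedComponent x₀ = univ := by
    refine eq_univ_of_forall fun x => ?_
    obtain ⟨i, hi⟩ := UU_cover hb (h.cov.mem x)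
    obtain ⟨g, hg⟩ := h.exists_rep hi
    have h4 := h1 g i _ hi
    have h5 : g ∈ H := hH ▸ Subgroup.mem_top g
    rw [hg, ← connectedComponent_eq (show g • x₀ ∈ connectedComponent x₀ from h5)] at h4
    exact h4
  rw [← this]
  exact isPreconnected_connectedComponent

theorem lift (hb : StrictMono fun j => (b j).re) (h : Mdl b c p s)
    (hfree : ∀ (Q : Type) [Group Q] (θ : ℕ → Q), θ 0 = 1 → ∃ μ : Γ →* Q, ∀ k ≤ r, μ (c k) = θ k)
    (Y : Type) [TopologicalSpace Y] (q : Y → ℂ) (hq : IsCoveringMapOn q (range b)ᶜ)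
    (hs : ∀ z ∉ range b, ∃ y, q y = z) : ∃ T : X → Y, Continuous T ∧ ∀ x, q (T x) = p x := by
  choose z hz using strip_nonempty hb
  let Fib : ℕ → Type := fun k => {y : Y // q y = z k}
  have hsec : ∀ i k (y : Fib k), ∃ σ : ℂ → Y, ContinuousOn σ (UU b i) ∧
      (∀ w ∈ UU b i, q (σ w) = w) ∧ σ (z k) = y := by
    intro i k y
    obtain ⟨σ, h1, h2, h3⟩ := exists_sec hq (isOpen_UU b i) (UU_subset b i) (y := y.1)
      (by rw [y.2]; exact strip_UU b k i (hz k))
    rw [y.2] at h3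
    exact ⟨σ, h1, h2, h3⟩
  choose σ hσ1 hσ2 hσ3 using hsec
  have huniq : ∀ i j k l (y : Fib k) (y' : Fib l) (t : Set ℂ), IsPreconnected t → t ⊆ UU b i →
      t ⊆ UU b j → ∀ w ∈ t, σ i k y w = σ j l y' w → EqOn (σ i k y) (σ j l y') t := by
    intro i j k l y y' t ht hi hj w hw he
    refine eqOn_lift hq ht ((hσ1 i k y).mono hi) ((hσ1 j l y').mono hj) (fun a ha => ?_)
      (fun a ha => ?_) hw he
    · rw [hσ2 i k y a (hi ha), hσ2 j l y' a (hj ha)]
    · rw [hσ2 i k y a (hi ha)]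
      exact UU_subset b i (hi ha)
  let tr : ∀ (_ : Bool) (k l : ℕ), Fib k → Fib l := fun i k l y =>
    ⟨σ i k y (z l), hσ2 i k y _ (strip_UU b l i (hz l))⟩
  have htr : ∀ i k l y, tr i l k (tr i k l y) = y := by
    intro i k l y
    apply Subtype.ext
    have := huniq i i l k (tr i k l y) y _ (isPreconnected_UU b i) subset_rfl subset_rfl (z l)
      (strip_UU b l i (hz l)) (hσ3 i l _) (strip_UU b k i (hz k))
    exact this.trans (hσ3 i k y)
  let E : ∀ (_ : Bool) (k : ℕ), Fib 0 ≃ Fib k := fun i k =>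
    ⟨tr i 0 k, tr i k 0, htr i 0 k, htr i k 0⟩
  let θ : ℕ → Equiv.Perm (Fib 0) := fun k => (E false k).trans (E true k).symm
  have hπ0 : θ 0 = 1 := by
    ext y
    change σ true 0 (tr false 0 0 y) (z 0) = y
    rw [hσ3]
    exact hσ3 false 0 y
  obtain ⟨μ, hμ⟩ := hfree _ θ hπ0
  obtain ⟨y₀, hy₀⟩ := hs (z 0) (UU_subset b true (strip_UU b 0 true (hz 0)))
  obtain ⟨Φ, hΦ1, hΦ2⟩ := h.exists_map hb (fun i g => σ i 0 (μ g⁻¹ ⟨y₀, hy₀⟩))
    (fun i g => hσ1 i 0 _) (fun k hk w hw g => by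
      refine huniq true false 0 0 _ _ _ (convex_strip b k).isPreconnected (strip_UU b k true)
        (strip_UU b k false) (z k) (hz k) ?_ hw
      rw [mul_inv_rev, map_mul, map_inv μ (c k), hμ k hk, Equiv.Perm.mul_apply]
      generalize μ g⁻¹ ⟨y₀, hy₀⟩ = y
      have h1 : E false k ((θ k)⁻¹ y) = E true k y := by
        change E false k ((E false k).symm (E true k y)) = _
        rw [Equiv.apply_symm_apply]
      exact (congrArg Subtype.val h1).symm)
  refine ⟨Φ, hΦ1, fun x => ?_⟩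
  obtain ⟨i, hi⟩ := UU_cover hb (h.cov.mem x)
  obtain ⟨g, hg⟩ := h.exists_rep hi
  have h1 := hΦ2 i g _ hi
  rw [hg] at h1
  rw [h1, hσ2 i 0 _ _ hi]

theorem quot (hb : StrictMono fun j => (b j).re) (h : Mdl b c p s) (G : Type) [Group G]
    (g : Γ →* G) : ∃ (X' : Type) (_ : TopologicalSpace X') (_ : MulAction G X') (p' : X' → ℂ),
      Cov (range b) G p' ∧ ∃ T : X → X', Continuous T ∧ (∀ x, p' (T x) = p x) ∧
        ∀ γ x, T (γ • x) = g γ • T x := by
  obtain ⟨X', _, _, p', s', h'⟩ := exists_mdl hb G fun k => g (c k)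
  obtain ⟨Φ, hΦ1, hΦ2⟩ := h.exists_map hb (fun i γ w => g γ • s' i w)
    (fun i γ => (h'.cov.cont _).comp_continuousOn (h'.cont i)) (fun k hk w hw γ => by
      rw [h'.glue k hk w hw, smul_smul, map_mul])
  refine ⟨X', _, _, p', h'.cov, Φ, hΦ1, fun x => ?_, fun γ x => ?_⟩
  · obtain ⟨i, hi⟩ := UU_cover hb (h.cov.mem x)
    obtain ⟨δ, hδ⟩ := h.exists_rep hi
    have h1 := hΦ2 i δ _ hi
    rw [hδ] at h1
    rw [h1, h'.cov.inv, h'.sec i _ hi]
  · obtain ⟨i, hi⟩ := UU_cover hb (h.cov.mem x)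
    obtain ⟨δ, hδ⟩ := h.exists_rep hi
    have h1 := hΦ2 i δ _ hi
    have h2 := hΦ2 i (γ * δ) _ hi
    rw [mul_smul] at h2
    rw [hδ] at h1 h2
    rw [h1, h2, map_mul, mul_smul]

theorem loop (h : Mdl b c p s) {u : ℂ → ℂ} (hu : Continuous u) (hper : ∀ w, u (w + 1) = u w)
    (hmem : ∀ w, u w ∉ range b) (x₀ : ℝ) {k l : ℕ} (hk : k ≤ r) (hl : l ≤ r)
    (h1 : ∀ x ∈ Icc x₀ (x₀ + 1 / 2), u x ∈ UU b false)
    (h2 : ∀ x ∈ Icc (x₀ + 1 / 2) (x₀ + 1), u x ∈ UU b true)
    (h3 : u x₀ ∈ Strip b l) (h4 : u (x₀ + 1 / 2 : ℝ) ∈ Strip b k) :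
    ∃ j : ℂ → X, Continuous j ∧ (∀ w, p (j w) = u w) ∧
      ∀ w, j (w + 1) = ((c k)⁻¹ * c l) • j w := by
  obtain ⟨j, hj1, hj2, hj3⟩ := exists_lift h.cov.cov hu hmem (a := (x₀ : ℂ))
    (y := s false (u x₀)) (h.sec false _ (strip_UU b l false h3))
  have hr : Continuous fun x : ℝ => u x := hu.comp Complex.continuous_ofReal
  have hjr : Continuous fun x : ℝ => j x := hj1.comp Complex.continuous_ofReal
  have e1 : j (x₀ + 1 / 2 : ℝ) = s false (u (x₀ + 1 / 2 : ℝ)) :=
    eqOn_lift h.cov.cov (g₁ := fun x : ℝ => j x) (g₂ := fun x : ℝ => s false (u x))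
      isPreconnected_Icc hjr.continuousOn ((h.cont false).comp hr.continuousOn h1)
      (fun x hx => by rw [hj2, h.sec false _ (h1 x hx)]) (fun x _ => h.cov.mem _)
      (left_mem_Icc.2 (by linarith)) hj3 (right_mem_Icc.2 (by linarith))
  have e2 : j (x₀ + 1 : ℝ) = (c k)⁻¹ • s true (u (x₀ + 1 : ℝ)) :=
    eqOn_lift h.cov.cov (g₁ := fun x : ℝ => j x) (g₂ := fun x : ℝ => (c k)⁻¹ • s true (u x))
      isPreconnected_Icc hjr.continuousOn
      ((h.cov.cont _).comp_continuousOn ((h.cont true).comp hr.continuousOn h2))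
      (fun x hx => by rw [hj2, h.cov.inv, h.sec true _ (h2 x hx)]) (fun x _ => h.cov.mem _)
      (left_mem_Icc.2 (by linarith))
      (by rw [e1, h.glue k hk _ h4, inv_smul_smul]) (right_mem_Icc.2 (by linarith))
  refine ⟨j, hj1, hj2, fun w => ?_⟩
  refine congr_fun (eq_lift h.cov.cov (g₁ := fun w => j (w + 1))
    (g₂ := fun w => ((c k)⁻¹ * c l) • j w) (hj1.comp (continuous_add_const 1))
    ((h.cov.cont _).comp hj1) (fun w => by rw [hj2, h.cov.inv, hj2, hper])
    (fun w => h.cov.mem _) (a := (x₀ : ℂ)) ?_) w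
  push_cast at e2
  rw [e2, hper, h.glue l hl _ h3, hj3, mul_smul]

end Mdl

end Vale.Agent.P179R
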