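import Vale.Agent.P179R.Model2
import Vale.Agent.P002Z.Branch

/-!
# TOP: the universal cover of `ℂ \ S`
-/

open Set Filter Topology Polynomial Function
open Vale.Agent.P002Z (Up Strip up_subset isOpen_up strip_subset isOpen_strip convex_strip
  not_re_of_up strip_unique up_cover exists_strip strip_nonempty contractible_up exists_rotation
  exists_enum)
open scoped Real

namespace Vale.Agent.P179R

variable {r : ℕ}

theorem ee_add (w w' : ℂ) : ee (w + w') = ee w * ee w' := by
  simp only [ee, Periodic.qParam]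
  rw [← Complex.exp_add]
  congr 1
  ring

theorem ee_one : ee 1 = 1 := by
  simp [ee, Periodic.qParam]

theorem ee_ne (w : ℂ) : ee w ≠ 0 := Periodic.qParam_ne_zero w

theorem ee_re_im (x Y : ℝ) :
    (ee (x + Y * Complex.I)).re = Real.exp (-2 * π * Y) * Real.cos (2 * π * x) ∧
    (ee (x + Y * Complex.I)).im = Real.exp (-2 * π * Y) * Real.sin (2 * π * x) := by
  simp only [ee, Periodic.qParam, Complex.exp_re, Complex.exp_im]
  constructor <;> simp

/-- push a point up into the half plane `Y ≤ im` -/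
noncomputable def clamp (Y : ℝ) (w : ℂ) : ℂ := w.re + (max w.im Y : ℝ) * Complex.I

theorem continuous_clamp (Y : ℝ) : Continuous (clamp Y) := by
  unfold clamp
  fun_prop

theorem clamp_add_one (Y : ℝ) (w : ℂ) : clamp Y (w + 1) = clamp Y w + 1 := by
  simp only [clamp, Complex.add_re, Complex.one_re, Complex.add_im, Complex.one_im, add_zero]
  push_cast
  ring

theorem clamp_of_lt {Y : ℝ} {w : ℂ} (h : Y < w.im) : clamp Y w = w := by
  rw [clamp, max_eq_left h.le, Complex.re_add_im]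

theorem clamp_real {Y : ℝ} (hY : 0 ≤ Y) (x : ℝ) : clamp Y x = x + Y * Complex.I := by
  simp [clamp, hY]

theorem norm_ee_clamp (Y : ℝ) (w : ℂ) : ‖ee (clamp Y w)‖ ≤ Real.exp (-2 * π * Y) := by
  rw [Periodic.norm_qParam]
  apply Real.exp_le_exp.2
  have h1 : (clamp Y w).im = max w.im Y := by simp [clamp]
  rw [h1, div_one]
  have := le_max_right w.im Y
  nlinarith [Real.pi_pos]

theorem exists_height {ε : ℝ} (hε : 0 < ε) : ∃ Y : ℝ, 0 ≤ Y ∧ Real.exp (-2 * π * Y) < ε := by
  have h1 : Tendsto (fun Y : ℝ => Real.exp (-2 * π * Y)) atTop (𝓝 0) :=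
    Real.tendsto_exp_atBot.comp (tendsto_id.const_mul_atTop_of_neg (by nlinarith [Real.pi_pos]))
  exact ((eventually_ge_atTop 0).and (h1.eventually (gt_mem_nhds hε))).exists

theorem continuous_uu (c : OnePoint ℂ) (Y : ℝ) : Continuous fun w => uu c (ee (clamp Y w)) := by
  have h := (Periodic.continuous_qParam (h := 1)).comp (continuous_clamp Y)
  induction c using OnePoint.rec with
  | infty => exact h.inv₀ fun w => ee_ne _
  | coe a => exact continuous_const.add h

namespace Mdl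

variable {b : Fin r → ℂ} {Γ X : Type} [Group Γ] [TopologicalSpace X] [MulAction Γ X]
  {c : ℕ → Γ} {p : X → ℂ} {s : Bool → ℂ → X}

theorem end_fin (hb : StrictMono fun j => (b j).re) (h : Mdl b c p s) (i : Fin r) :
    End p (b i) ((c i)⁻¹ * c (i + 1)) := by
  obtain ⟨ε, hε, hgap⟩ : ∃ ε > 0, ∀ j, j ≠ i → ε < |(b j).re - (b i).re| := by
    have h1 : ∀ j, ∀ᶠ ε in 𝓝[>] (0 : ℝ), j ≠ i → ε < |(b j).re - (b i).re| := by
      intro j
      by_cases hj : j = i
      · exact Eventually.of_forall fun _ h => absurd hj h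
      · have : 0 < |(b j).re - (b i).re| := abs_pos.2 (sub_ne_zero.2 (hb.injective.ne hj))
        filter_upwards [mem_nhdsWithin_of_mem_nhds (gt_mem_nhds this)] with ε hε _ using hε
    exact ((eventually_mem_nhdsWithin).and (eventually_all.2 h1)).exists
  obtain ⟨Y, hY, hYε⟩ := exists_height hε
  have hq : ∀ q : ℂ, ‖q‖ < ε → ∀ j, (b i + q).re = (b j).re → j = i := by
    intro q hq j hj
    by_contra hne
    have h1 := hgap j hne
    have h2 : (b j).re - (b i).re = q.re := by rw [← hj]; simp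
    rw [h2] at h1
    linarith [Complex.abs_re_le_norm q]
  have hup : ∀ (e : ℝ) (q : ℂ), e ≠ 0 → q ≠ 0 → ‖q‖ < ε → 0 ≤ e * q.im → b i + q ∈ Up b e := by
    intro e q he hq0 hqε hs j hj
    obtain rfl := hq q hqε j hj
    have h1 : q.re = 0 := by simpa using hj
    have h2 : q.im ≠ 0 := fun h => hq0 (Complex.ext h1 h)
    simpa using lt_of_le_of_ne hs (mul_ne_zero he h2).symm
  have hn : ∀ w, ‖ee (clamp Y w)‖ < ε := fun w => (norm_ee_clamp Y w).trans_lt hYε
  have hstrip : ∀ q : ℂ, ‖q‖ < ε → (q.re < 0 → b i + q ∈ Strip b i) ∧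
      (0 < q.re → b i + q ∈ Strip b (i + 1)) := by
    intro q hqε
    have h1 := abs_lt.1 ((Complex.abs_re_le_norm q).trans_lt hqε)
    have h2 : ∀ j, j < i → (b j).re < (b i + q).re := by
      intro j hj
      have h3 := hgap j hj.ne
      rw [abs_of_neg (sub_neg.2 (hb hj))] at h3
      rw [Complex.add_re]
      linarith
    have h3 : ∀ j, i < j → (b i + q).re < (b j).re := by
      intro j hj
      have h3 := hgap j hj.ne'
      rw [abs_of_pos (sub_pos.2 (hb hj))] at h3
      rw [Complex.add_re]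
      linarith
    refine ⟨fun hq j => ⟨h2 j, fun hj => ?_⟩, fun hq j => ⟨fun hj => ?_, fun hj => h3 j hj⟩⟩
    · rcases eq_or_lt_of_le (show i ≤ j from hj) with rfl | hj
      · rw [Complex.add_re]
        linarith
      · exact h3 j hj
    · rcases eq_or_lt_of_le (show j ≤ i from Nat.lt_succ_iff.1 hj) with rfl | hj
      · rw [Complex.add_re]
        linarith
      · exact h2 j hj
  have hE := Real.exp_pos (-2 * π * Y)
  obtain ⟨j, hj1, hj2, hj3⟩ := h.loop (continuous_uu (b i) Y)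
    (fun w => by rw [clamp_add_one, ee_add, ee_one, mul_one])
    (fun w => by
      rcases le_total 0 (ee (clamp Y w)).im with h1 | h1
      · exact up_subset b 1 (hup 1 _ one_ne_zero (ee_ne _) (hn w) (by linarith))
      · exact up_subset b (-1) (hup (-1) _ (by norm_num) (ee_ne _) (hn w) (by linarith)))
    (-1 / 2) (k := i + 1) (l := i) i.2 i.2.le
    (fun x hx => hup (-1) _ (by norm_num) (ee_ne _) (hn x) (by
      rw [clamp_real hY, (ee_re_im x Y).2]
      have := Real.sin_nonpos_of_nonpos_of_neg_pi_le (x := 2 * π * x)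
        (by nlinarith [Real.pi_pos, hx.2]) (by nlinarith [Real.pi_pos, hx.1])
      nlinarith))
    (fun x hx => hup 1 _ one_ne_zero (ee_ne _) (hn x) (by
      rw [clamp_real hY, (ee_re_im x Y).2]
      have := Real.sin_nonneg_of_nonneg_of_le_pi (x := 2 * π * x)
        (by nlinarith [Real.pi_pos, hx.1]) (by nlinarith [Real.pi_pos, hx.2])
      nlinarith))
    ((hstrip _ (hn _)).1 (by
      rw [clamp_real hY, (ee_re_im _ Y).1, show 2 * π * (-1 / 2) = -π by ring, Real.cos_neg,
        Real.cos_pi]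
      linarith))
    ((hstrip _ (hn _)).2 (by
      rw [clamp_real hY, (ee_re_im _ Y).1, show 2 * π * (-1 / 2 + 1 / 2) = 0 by ring, Real.cos_zero]
      linarith))
  refine ⟨Y, j, hj1, fun w => ?_, fun w hw => ?_⟩
  · rw [hj3, mul_inv_rev, inv_inv]
  · rw [hj2, clamp_of_lt hw]

theorem end_inf (h : Mdl b c p s) : End p OnePoint.infty ((c r)⁻¹ * c 0) := by
  obtain ⟨M, hM0, hM⟩ : ∃ M > 0, ∀ j, ‖b j‖ < M := by
    obtain ⟨M, hM⟩ := (finite_range fun j => ‖b j‖).bddAbove
    exact ⟨|M| + 1, by positivity, fun j => by linarith [hM ⟨j, rfl⟩, le_abs_self M]⟩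
  obtain ⟨Y, hY, hYε⟩ := exists_height (ε := (2 * M)⁻¹) (by positivity)
  have hre : ∀ j, |(b j).re| < M := fun j => (Complex.abs_re_le_norm _).trans_lt (hM j)
  have him : ∀ j, |(b j).im| < M := fun j => (Complex.abs_im_le_norm _).trans_lt (hM j)
  have hup : ∀ (e : ℝ) (z : ℂ), e = 1 ∨ e = -1 → 2 * M < ‖z‖ → 0 ≤ e * z.im → z ∈ Up b e := by
    intro e z he hz hs j hj
    have h1 := Complex.norm_le_abs_re_add_abs_im z
    have h2 := hre j
    have h3 := abs_lt.1 (him j)
    rw [← hj] at h2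
    rcases he with rfl | rfl
    · rw [abs_of_nonneg (by linarith : 0 ≤ z.im)] at h1
      linarith
    · rw [abs_of_nonpos (by linarith : z.im ≤ 0)] at h1
      linarith
  have hn : ∀ w, 2 * M < ‖(ee (clamp Y w))⁻¹‖ := fun w => by
    rw [norm_inv]
    exact lt_inv_of_lt_inv₀ (norm_pos_iff.2 (ee_ne _)) ((norm_ee_clamp Y w).trans_lt hYε)
  have hsq : ∀ w : ℂ, 0 < Complex.normSq (ee w) := fun w => Complex.normSq_pos.2 (ee_ne w)
  have hE := Real.exp_pos (-2 * π * Y)
  have hreal : ∀ z : ℂ, z.im = 0 → 2 * M < ‖z‖ → 2 * M < |z.re| := by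
    intro z h1 h2
    have h3 := Complex.norm_le_abs_re_add_abs_im z
    rw [h1, abs_zero] at h3
    linarith
  obtain ⟨j, hj1, hj2, hj3⟩ := h.loop (continuous_uu OnePoint.infty Y)
    (fun w => by rw [clamp_add_one, ee_add, ee_one, mul_one])
    (fun w => by
      rcases le_total 0 (ee (clamp Y w))⁻¹.im with h1 | h1
      · exact up_subset b 1 (hup 1 _ (Or.inl rfl) (hn w) (by rw [uu_infty]; linarith))
      · exact up_subset b (-1) (hup (-1) _ (Or.inr rfl) (hn w) (by rw [uu_infty]; linarith)))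
    0 (k := 0) (l := r) (Nat.zero_le _) le_rfl
    (fun x hx => hup (-1) _ (Or.inr rfl) (hn x) (by
      rw [uu_infty, Complex.inv_im, clamp_real hY, (ee_re_im x Y).2]
      have h1 := Real.sin_nonneg_of_nonneg_of_le_pi (x := 2 * π * x)
        (by nlinarith [Real.pi_pos, hx.1]) (by nlinarith [Real.pi_pos, hx.2])
      rw [neg_div, neg_one_mul, neg_neg]
      exact div_nonneg (by positivity) (hsq _).le))
    (fun x hx => hup 1 _ (Or.inl rfl) (hn x) (by
      rw [uu_infty, Complex.inv_im, clamp_real hY, (ee_re_im x Y).2]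
      have h1 := Real.sin_nonpos_of_nonpos_of_neg_pi_le (x := 2 * π * x - 2 * π)
        (by nlinarith [Real.pi_pos, hx.2]) (by nlinarith [Real.pi_pos, hx.1])
      rw [Real.sin_sub_two_pi] at h1
      rw [one_mul]
      exact div_nonneg (by nlinarith) (hsq _).le))
    (by
      have h1 := hn (0 : ℝ)
      have h2 := ee_re_im 0 Y
      rw [← clamp_real hY, mul_zero, Real.cos_zero, Real.sin_zero, mul_zero] at h2
      have h3 := hreal _ (by rw [Complex.inv_im, h2.2]; simp) h1
      have h4 : 0 < (ee (clamp Y (0 : ℝ)))⁻¹.re := by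
        rw [Complex.inv_re, h2.1]
        exact div_pos (by linarith) (hsq _)
      rw [abs_of_pos h4] at h3
      refine fun j => ⟨fun _ => ?_, fun hj => absurd j.2 (not_lt.2 hj)⟩
      rw [uu_infty]
      linarith [(abs_lt.1 (hre j)).2])
    (by
      have h1 := hn (0 + 1 / 2 : ℝ)
      have h2 := ee_re_im (0 + 1 / 2) Y
      rw [← clamp_real hY, show 2 * π * (0 + 1 / 2) = π by ring, Real.cos_pi, Real.sin_pi,
        mul_zero] at h2
      have h3 := hreal _ (by rw [Complex.inv_im, h2.2]; simp) h1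
      have h4 : (ee (clamp Y (0 + 1 / 2 : ℝ)))⁻¹.re < 0 := by
        rw [Complex.inv_re, h2.1]
        exact div_neg_of_neg_of_pos (by linarith) (hsq _)
      rw [abs_of_neg h4] at h3
      refine fun j => ⟨fun hj => absurd hj (Nat.not_lt_zero _), fun _ => ?_⟩
      rw [uu_infty]
      linarith [(abs_lt.1 (hre j)).1])
  refine ⟨Y, j, hj1, fun w => ?_, fun w hw => ?_⟩
  · rw [hj3, mul_inv_rev, inv_inv]
  · rw [hj2, clamp_of_lt hw]

end Mdl

/-- partial products of the generators -/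
def ppr (r k : ℕ) : FreeGroup (Fin r) :=
  ((List.ofFn (FreeGroup.of : Fin r → FreeGroup (Fin r))).take k).prod

theorem ppr_zero : ppr r 0 = 1 := by simp [ppr]

theorem ppr_succ (i : Fin r) : ppr r (i + 1) = ppr r i * FreeGroup.of i := by
  rw [ppr, List.prod_take_succ _ _ (by simp), List.getElem_ofFn]
  rfl

theorem ppr_last : (ppr r r)⁻¹ = ginf r := by
  rw [ppr, ginf, List.take_of_length_le (by simp)]

section rot

variable {S : Set ℂ} {Γ X : Type} [Group Γ] [TopologicalSpace X] [MulAction Γ X] {p : X → ℂ}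

theorem cov_mul {Y : Type} [TopologicalSpace Y] {q : Y → ℂ} {S B : Set ℂ} {v : ℂ} (hv : v ≠ 0)
    (hB : ∀ z, v * z ∈ B ↔ z ∈ S) (hq : IsCoveringMapOn q Sᶜ) :
    IsCoveringMapOn (fun y => v * q y) Bᶜ := by
  have h1 := hq.homeomorph_comp (Homeomorph.mulLeft₀ v hv)
  refine h1.mono fun z hz h2 => hz ?_
  have h3 := (hB _).2 h2
  rwa [Homeomorph.mulLeft₀_symm_apply, mul_inv_cancel_left₀ hv] at h3

theorem Cov.mul {B : Set ℂ} {v : ℂ} (hv : v ≠ 0) (hB : ∀ z, v * z ∈ B ↔ z ∈ S) (h : Cov S Γ p) :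
    Cov B Γ fun x => v * p x where
  cov := cov_mul hv hB h.cov
  mem x hx := h.mem x ((hB _).1 hx)
  surj z hz := by
    obtain ⟨x, hx⟩ := h.surj (v⁻¹ * z) fun h1 => hz (by
      have := (hB _).2 h1
      rwa [mul_inv_cancel_left₀ hv] at this)
    exact ⟨x, by rw [hx, mul_inv_cancel_left₀ hv]⟩
  cont := h.cont
  inv g x := by rw [h.inv]
  trans x y hxy := h.trans x y (mul_left_cancel₀ hv hxy)
  free := h.free

theorem End.shift {c c' : OnePoint ℂ} {g : Γ} (h : End p c g) {p' : X → ℂ} {v : ℂ} (hv : v ≠ 0)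
    (hc : ∀ x q, p x = uu c (q * v) → p' x = uu c' q) : End p' c' g := by
  obtain ⟨R, j, h1, h2, h3⟩ := h
  set w₀ := Periodic.invQParam 1 v
  have h4 : ee w₀ = v := Periodic.qParam_right_inv one_ne_zero hv
  refine ⟨R - w₀.im, fun w => j (w + w₀), h1.comp (continuous_add_const _), fun w => ?_,
    fun w hw => hc _ _ ?_⟩
  · rw [← h2, add_right_comm]
  · rw [h3 _ (by rw [Complex.add_im]; linarith), ee_add, h4]

end rot

theorem top : TOP := by
  intro S hS
  obtain ⟨u, hu, hinj⟩ := exists_rotation hS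
  obtain ⟨r, b, hb, hrange⟩ := exists_enum (hS.image fun z => u * z) (by
    rintro _ ⟨z, hz, rfl⟩ _ ⟨w, hw, rfl⟩ h
    rw [hinj hz hw h])
  have hu' : u⁻¹ ≠ 0 := inv_ne_zero hu
  have hB : ∀ z, u * z ∈ range b ↔ z ∈ S := fun z => by
    rw [hrange]
    exact (mul_right_injective₀ hu).mem_set_image
  have hB' : ∀ z, u⁻¹ * z ∈ S ↔ z ∈ range b := fun z => by
    rw [← hB, mul_inv_cancel_left₀ hu]
  obtain ⟨X, _, _, p, s, h⟩ := exists_mdl hb (FreeGroup (Fin r)) (ppr r)
  refine ⟨r, fun j => u⁻¹ * b j, fun i j hij => hb.injective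
    (congrArg Complex.re (mul_left_cancel₀ hu' hij)), ?_, X, _, _, fun x => u⁻¹ * p x,
    h.cov.mul hu' hB', h.preconn hb ppr_zero fun H hH => ?_, fun i => ?_, ?_,
    fun Y _ q hq hs => ?_, fun G _ g => ?_⟩
  · ext z
    rw [← hB]
    constructor
    · rintro ⟨j, rfl⟩
      exact ⟨j, by rw [mul_inv_cancel_left₀ hu]⟩
    · rintro ⟨j, hj⟩
      exact ⟨j, by simp only [hj, inv_mul_cancel_left₀ hu]⟩
  · rw [eq_top_iff, ← FreeGroup.closure_range_of, Subgroup.closure_le]
    rintro _ ⟨i, rfl⟩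
    have h1 := H.mul_mem (H.inv_mem (hH i i.2.le)) (hH (i + 1) i.2)
    rwa [ppr_succ, inv_mul_cancel_left] at h1
  · have h1 := h.end_fin hb i
    rw [ppr_succ, inv_mul_cancel_left] at h1
    refine h1.shift hu fun x q hx => ?_
    rw [hx, uu_coe, uu_coe]
    field_simp
  · have h1 := h.end_inf
    rw [ppr_zero, mul_one, ppr_last] at h1
    refine h1.shift hu' fun x q hx => ?_
    rw [hx, uu_infty, uu_infty, mul_inv, inv_inv, mul_comm q⁻¹, inv_mul_cancel_left₀ hu]
  · obtain ⟨T, hT1, hT2⟩ := h.lift hb (fun Q _ θ hθ => by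
      refine ⟨FreeGroup.lift fun i : Fin r => (θ i)⁻¹ * θ (i + 1), fun k hk => ?_⟩
      induction k with
      | zero => rw [ppr_zero, map_one, hθ]
      | succ k ih =>
        rw [ppr_succ ⟨k, hk⟩, map_mul, ih (Nat.le_of_succ_le hk), FreeGroup.lift_apply_of,
          mul_inv_cancel_left]) Y (fun y => u * q y) (cov_mul hu hB hq) (fun z hz => by
      obtain ⟨y, hy⟩ := hs (u⁻¹ * z) fun h1 => hz ((hB' z).1 h1)
      exact ⟨y, by rw [hy, mul_inv_cancel_left₀ hu]⟩)
    exact ⟨T, hT1, fun x => by simp only [← hT2, inv_mul_cancel_left₀ hu]⟩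
  · obtain ⟨X', _, _, p', h1, T, h2, h3, h4⟩ := h.quot hb G g
    exact ⟨X', _, _, fun x => u⁻¹ * p' x, h1.mul hu' hB', T, h2, fun x => by simp only [h3], h4⟩

end Vale.Agent.P179R
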